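import Vale.Agent.P156.H737.GraphC
import Vale.Agent.P156.G.Iface
import Vale.Agent.P156.H520.Tree

/-! Block G-C, graph side, in the form of the interface `G/Iface.lean`. -/

open MeasureTheory Finset Filter Topology Matrix

noncomputable section

namespace Vale.Agent.P156.H737

open Vale.Agent.P156 Vale.Agent.P156.H520

variable {d : ℕ} {𝒰 : Ultrafilter ℕ} {E : ℕ → ℝ} {E₀ : ℝ}

theorem continuous_mE (d : ℕ) : Continuous (fun E : ℝ => mE d E) := by
  unfold mE
  fun_prop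

theorem mdE_im_pos (hd : 3 ≤ d) (hE : |E₀| < 2 * Real.sqrt ((d : ℝ) - 1)) :
    0 < (mdE d E₀).im := by
  have h1 := Edm_im hd hE
  unfold mdE
  rw [neg_div, one_div, Complex.neg_im, Complex.inv_im]
  have h2 : 0 < Complex.normSq ((E₀ : ℂ) + d * mE d E₀) := by
    rw [Complex.normSq_pos]
    exact Edm_ne hd hE
  rw [neg_div, neg_neg]
  exact div_pos h1 h2

theorem continuousAt_mdE_im (hd : 3 ≤ d) (hE : |E₀| < 2 * Real.sqrt ((d : ℝ) - 1)) :
    ContinuousAt (fun E : ℝ => (mdE d E).im) E₀ := by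
  have h1 : ContinuousAt (fun E : ℝ => mdE d E) E₀ := by
    unfold mdE
    refine ContinuousAt.div continuousAt_const ?_ (Edm_ne hd hE)
    exact (Complex.continuous_ofReal.continuousAt).add
      (continuousAt_const.mul (continuous_mE d).continuousAt)
  exact Complex.continuous_im.continuousAt.comp h1

/-- Two-sided bounds of `Im m_d(E_n)` along a good sequence. -/
theorem im_bounds (hG : GoodSeq d 𝒰 E E₀) :
    ∃ c0 c1 : ℝ, 0 < c0 ∧ (∀ᶠ n in (𝒰 : Filter ℕ), c0 ≤ (mdE d (E n)).im) ∧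
      ∀ᶠ n in (𝒰 : Filter ℕ), (mdE d (E n)).im ≤ c1 := by
  have h1 : Tendsto (fun n => (mdE d (E n)).im) (𝒰 : Filter ℕ) (𝓝 (mdE d E₀).im) :=
    (continuousAt_mdE_im hG.three hG.bulk).tendsto.comp hG.lim
  have h0 := mdE_im_pos hG.three hG.bulk
  refine ⟨(mdE d E₀).im / 2, (mdE d E₀).im + 1, by positivity, ?_, ?_⟩
  · filter_upwards [h1.eventually (lt_mem_nhds (show (mdE d E₀).im / 2 < (mdE d E₀).im by
      linarith))] with n hn
    exact hn.le
  · filter_upwards [h1.eventually (gt_mem_nhds (show (mdE d E₀).im < (mdE d E₀).im + 1 by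
      linarith))] with n hn
    exact hn.le

theorem graphH1 (d : ℕ) : G.GraphH1 d := by
  intro 𝒰 E E₀ hG ε hε
  obtain ⟨c0, c1, hc0, h1, h2⟩ := im_bounds hG
  obtain ⟨Λ, -, h⟩ := graph_H1 hG (c := fun n => (mdE d (E n)).im) hc0 h1 ε hε
  exact ⟨Λ, h⟩

theorem graphH2 (d : ℕ) : G.GraphH2 d := by
  intro 𝒰 E E₀ hG m hm M hM ε hε
  obtain ⟨c0, c1, hc0, h1, h2⟩ := im_bounds hG
  obtain ⟨N0, -, h⟩ := graph_H2 hG (c := fun n => (mdE d (E n)).im) hc0 h1 h2 m hm ε hε
  exact ⟨N0, fun N hN => h N hN M hM⟩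

theorem wwfst (d : ℕ) : G.WWfst d := fun _ K Φ hn => avg_WW_graph d K hn Φ

end Vale.Agent.P156.H737
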