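import Vale.Agent.P156.H737.GoeC
import Vale.Agent.P156.H625.GoeLaw

/-! Block G-C, GOE side, unconditional form. -/

noncomputable section

namespace Vale.Agent.P156.H737

open Vale.Agent.P156

theorem weg : Weg := ⟨165, by norm_num, fun n _ _ hs => H625.lintegral_cnt_le n hs⟩

theorem goeH1_done : G.GoeH1 := goeH1 weg

theorem goeH2_done : G.GoeH2 := goeH2 weg

theorem goeInv_done : G.GoeInv := goeInv weg

end Vale.Agent.P156.H737
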