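import Vale.Agent.P156.R2.Defs

/-! Averages over `W_K` of functions of the graph and of the centres. -/

open MeasureTheory Finset

noncomputable section

namespace Vale.Agent.P156.H737

open Vale.Agent.P156

/-- Orderings of the neighbourhood of `v` are bijections `Fin d ≃ N(v)`. -/
def starEquiv {n d : ℕ} (G : SimpleGraph (Fin n)) (v : Fin n) :
    {l : Fin d → Fin n // IsStar G v l} ≃ (Fin d ≃ {w // G.Adj v w}) where
  toFun l := Equiv.ofBijective (fun k => ⟨l.1 k, (l.2.2 _).2 ⟨k, rfl⟩⟩)
    ⟨fun a b h => l.2.1 (congrArg Subtype.val h), fun w => by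
      obtain ⟨k, hk⟩ := (l.2.2 w.1).1 w.2
      exact ⟨k, Subtype.ext hk⟩⟩
  invFun e := ⟨fun k => (e k).1, fun a b h => e.injective (Subtype.ext h), fun w =>
    ⟨fun h => ⟨e.symm ⟨w, h⟩, by simp⟩, by rintro ⟨k, rfl⟩; exact (e k).2⟩⟩
  left_inv l := by ext; rfl
  right_inv e := by ext; rfl

open Classical in
theorem card_isStar {n d : ℕ} {G : SimpleGraph (Fin n)} (hG : G ∈ regularGraphs n d)
    (v : Fin n) : (univ.filter (fun l : Fin d → Fin n => IsStar G v l)).card = d.factorial := by
  have hreg : G.IsRegularOfDegree d := by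
    unfold regularGraphs at hG
    exact (Finset.mem_filter.mp hG).2
  have hdeg : Fintype.card {w // G.Adj v w} = d := by
    have := hreg.degree_eq v
    rw [← SimpleGraph.card_neighborSet_eq_degree] at this
    exact this
  rw [← Fintype.card_subtype, Fintype.card_congr (starEquiv G v),
    Fintype.card_equiv (Fintype.equivOfCardEq (by rw [Fintype.card_fin, hdeg]))]
  simp

open Classical in
/-- Sum over `W_K` of a function of the graph and of the centres. -/
theorem sum_WW_centres (n d K : ℕ) (Φ : SimpleGraph (Fin n) → (Fin K → Fin n) → ℝ) :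
    ∑ ω ∈ WW n d K, Φ ω.1 ω.2.1 =
      (d.factorial : ℝ) ^ K * ∑ G ∈ regularGraphs n d, ∑ v : Fin K → Fin n, Φ G v := by
  have h1 : ∑ ω ∈ WW n d K, Φ ω.1 ω.2.1 =
      ∑ G : SimpleGraph (Fin n), ∑ v : Fin K → Fin n, ∑ l : Fin K → Fin d → Fin n,
        if (G ∈ regularGraphs n d ∧ ∀ j, IsStar G (v j) (l j)) then Φ G v else 0 := by
    unfold WW
    rw [Finset.sum_filter, Fintype.sum_prod_type]
    refine Finset.sum_congr rfl fun G _ => ?_
    rw [Fintype.sum_prod_type]
  rw [h1, Finset.mul_sum, ← Finset.sum_subset (Finset.subset_univ (regularGraphs n d))]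
  · refine Finset.sum_congr rfl fun G hG => ?_
    rw [Finset.mul_sum]
    refine Finset.sum_congr rfl fun v _ => ?_
    have h2 : (univ.filter fun l : Fin K → Fin d → Fin n => ∀ j, IsStar G (v j) (l j)) =
        Fintype.piFinset (fun j => univ.filter (fun l : Fin d → Fin n => IsStar G (v j) l)) := by
      ext l
      simp [Fintype.mem_piFinset]
    have h3 : ((univ.filter fun l : Fin K → Fin d → Fin n => ∀ j, IsStar G (v j) (l j)).card : ℝ)
        = (d.factorial : ℝ) ^ K := by
      rw [h2, Fintype.card_piFinset]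
      simp [card_isStar hG]
    simp only [hG, true_and]
    rw [← Finset.sum_filter, Finset.sum_const, nsmul_eq_mul, h3]
  · intro G _ hG
    simp [hG]

open Classical in
theorem card_WW (n d K : ℕ) : ((WW n d K).card : ℝ) =
    (d.factorial : ℝ) ^ K * ((regularGraphs n d).card * (n : ℝ) ^ K) := by
  have := sum_WW_centres n d K (fun _ _ => 1)
  simpa using this

open Classical in
/-- Average over `W_K` of a function of the graph and of the centres. -/
theorem avg_WW_centres (n d K : ℕ) (Φ : SimpleGraph (Fin n) → (Fin K → Fin n) → ℝ) :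
    avg (WW n d K) (fun ω => Φ ω.1 ω.2.1) =
      avg (regularGraphs n d) (fun G => (∑ v : Fin K → Fin n, Φ G v) / (n : ℝ) ^ K) := by
  unfold avg
  rw [sum_WW_centres, card_WW, ← Finset.sum_div, div_div, mul_comm ((n : ℝ) ^ K),
    mul_div_mul_left]
  have : (0 : ℝ) < d.factorial := by exact_mod_cast d.factorial_pos
  positivity

open Classical in
theorem avg_WW_graph {n : ℕ} (d K : ℕ) (hn : 0 < n) (Φ : SimpleGraph (Fin n) → ℝ) :
    avg (WW n d K) (fun ω => Φ ω.1) = avg (regularGraphs n d) Φ := by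
  rw [avg_WW_centres n d K (fun G _ => Φ G)]
  congr 1
  funext G
  have : (0 : ℝ) < (n : ℝ) ^ K := by positivity
  simp only [Finset.sum_const, Finset.card_univ, Fintype.card_fun, Fintype.card_fin,
    nsmul_eq_mul]
  push_cast
  field_simp

open Classical in
theorem prob_WW_graph {n : ℕ} (d K : ℕ) (hn : 0 < n) (P : SimpleGraph (Fin n) → Prop) :
    prob (WW n d K) (fun ω => P ω.1) = prob (regularGraphs n d) P := by
  unfold prob
  exact avg_WW_graph d K hn (fun G => if P G then 1 else 0)

/-! ### Elementary properties of averages -/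

theorem avg_mono {α : Type*} {s : Finset α} {Φ Ψ : α → ℝ} (h : ∀ ω ∈ s, Φ ω ≤ Ψ ω) :
    avg s Φ ≤ avg s Ψ :=
  div_le_div_of_nonneg_right (Finset.sum_le_sum h) (Nat.cast_nonneg _)

theorem avg_nonneg {α : Type*} {s : Finset α} {Φ : α → ℝ} (h : ∀ ω ∈ s, 0 ≤ Φ ω) :
    0 ≤ avg s Φ := div_nonneg (Finset.sum_nonneg h) (Nat.cast_nonneg _)

theorem avg_add {α : Type*} (s : Finset α) (Φ Ψ : α → ℝ) :
    avg s (fun ω => Φ ω + Ψ ω) = avg s Φ + avg s Ψ := by
  unfold avg
  rw [Finset.sum_add_distrib, add_div]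

theorem avg_const_le {α : Type*} (s : Finset α) {c : ℝ} (hc : 0 ≤ c) :
    avg s (fun _ => c) ≤ c := by
  unfold avg
  rw [Finset.sum_const, nsmul_eq_mul]
  rcases Nat.eq_zero_or_pos s.card with h | h
  · simp [h, hc]
  · rw [mul_div_cancel_left₀]
    positivity

theorem avg_mul_left {α : Type*} (s : Finset α) (c : ℝ) (Φ : α → ℝ) :
    avg s (fun ω => c * Φ ω) = c * avg s Φ := by
  unfold avg
  rw [← Finset.mul_sum, mul_div_assoc]

open Classical in
/-- Markov inequality. -/
theorem prob_lt_le_avg {α : Type*} {s : Finset α} {Φ : α → ℝ} (h : ∀ ω ∈ s, 0 ≤ Φ ω) {c : ℝ}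
    (hc : 0 < c) : prob s (fun ω => c < Φ ω) ≤ avg s Φ / c := by
  unfold prob
  have : avg s Φ / c = avg s (fun ω => Φ ω / c) := by
    unfold avg
    rw [← Finset.sum_div]
    ring
  rw [this]
  refine avg_mono fun ω hω => ?_
  split_ifs with h1
  · rw [le_div_iff₀ hc]
    linarith
  · exact div_nonneg (h ω hω) hc.le

open Classical in
theorem prob_mono {α : Type*} {s : Finset α} {P Q : α → Prop} (h : ∀ ω ∈ s, P ω → Q ω) :
    prob s P ≤ prob s Q := by
  unfold prob
  refine avg_mono fun ω hω => ?_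
  by_cases hP : P ω
  · simp [hP, h ω hω hP]
  · simp only [hP, if_false]
    split_ifs <;> norm_num

open Classical in
theorem prob_or_le {α : Type*} (s : Finset α) (P Q : α → Prop) :
    prob s (fun ω => P ω ∨ Q ω) ≤ prob s P + prob s Q := by
  unfold prob
  rw [← avg_add]
  refine avg_mono fun ω _ => ?_
  by_cases hP : P ω <;> by_cases hQ : Q ω <;> simp [hP, hQ]

open Classical in
/-- Splitting an average of a function bounded by `1` according to a bad event. -/
theorem avg_le_of_bad {α : Type*} {s : Finset α} {Φ : α → ℝ} {B : α → Prop} {b : ℝ} (hb : 0 ≤ b)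
    (h1 : ∀ ω ∈ s, Φ ω ≤ 1) (h2 : ∀ ω ∈ s, ¬ B ω → Φ ω ≤ b) :
    avg s Φ ≤ b + prob s B := by
  unfold prob
  refine (avg_mono (Ψ := fun ω => b + if B ω then 1 else 0) fun ω hω => ?_).trans ?_
  · by_cases hB : B ω
    · simp only [hB, if_true]
      linarith [h1 ω hω]
    · simp only [hB, if_false, add_zero]
      exact h2 ω hω hB
  · rw [avg_add]
    exact add_le_add (avg_const_le s hb) le_rfl

end Vale.Agent.P156.H737
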