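import Mathlib

/-!
# Truncation of the kernel of a resolvent (block G-C)

`ker u φ v w = ∑ i, u i * φ i v * φ i w` for an orthonormal family `φ` of `L²(π)`, and its
truncation `kerT a M` (only `a ≤ |u i|`, and the functions `φ i` truncated at `φ² ≤ M`).
-/

open MeasureTheory Finset

noncomputable section

namespace Vale.Agent.P156.H737

variable {V : Type*} {ι : Type*} [Fintype ι]

/-- The kernel `∑ i, u i φ i (v) φ i (w)`. -/
def ker (u : ι → ℝ) (φ : ι → V → ℝ) (v w : V) : ℝ := ∑ i, u i * φ i v * φ i w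

/-- Truncation `x 1_{x² ≤ M}`. -/
def tr (M x : ℝ) : ℝ := if x ^ 2 ≤ M then x else 0

open Classical in
/-- The truncated kernel. -/
def kerT (a M : ℝ) (u : ι → ℝ) (φ : ι → V → ℝ) (v w : V) : ℝ :=
  ∑ i, (if a ≤ |u i| then u i * (tr M (φ i v) * tr M (φ i w)) else 0)

/-- An orthonormal family of `L²(π)`. -/
structure Orthn [MeasurableSpace V] (π : Measure V) (φ : ι → V → ℝ) : Prop where
  meas : ∀ i, Measurable (φ i)
  sq : ∀ i, Integrable (fun v => φ i v ^ 2) π
  orth : ∀ i j, ∫ v, φ i v * φ j v ∂π = open Classical in if i = j then 1 else 0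

theorem tr_sq_le (M x : ℝ) : tr M x ^ 2 ≤ x ^ 2 := by
  unfold tr
  split_ifs
  · exact le_rfl
  · simpa using sq_nonneg x

theorem tr_sq_le' {M : ℝ} (hM : 0 ≤ M) (x : ℝ) : tr M x ^ 2 ≤ M := by
  unfold tr
  split_ifs with h
  · exact h
  · simpa using hM

theorem sub_tr_sq (M x : ℝ) : (x - tr M x) ^ 2 = if M < x ^ 2 then x ^ 2 else 0 := by
  unfold tr
  by_cases h : x ^ 2 ≤ M
  · simp [h, not_lt.mpr h]
  · simp [h, not_le.mp h]

theorem abs_tr_mul_tr_le {M : ℝ} (hM : 0 ≤ M) (x y : ℝ) : |tr M x * tr M y| ≤ M := by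
  have h1 := tr_sq_le' hM x
  have h2 := tr_sq_le' hM y
  rw [abs_le]
  constructor <;> nlinarith [sq_nonneg (tr M x + tr M y), sq_nonneg (tr M x - tr M y)]

theorem measurable_tr (M : ℝ) : Measurable (tr M) := by
  unfold tr
  exact Measurable.ite (measurableSet_le (by fun_prop) (by fun_prop)) measurable_id
    measurable_const

/-- The truncated kernel is bounded. -/
theorem abs_kerT_le {a M : ℝ} (ha : 0 < a) (hM : 0 ≤ M) (u : ι → ℝ) (φ : ι → V → ℝ) (v w : V) :
    |kerT a M u φ v w| ≤ (∑ i, u i ^ 2) * M / a := by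
  classical
  unfold kerT
  refine (Finset.abs_sum_le_sum_abs _ _).trans ?_
  rw [Finset.sum_mul, Finset.sum_div]
  refine Finset.sum_le_sum fun i _ => ?_
  split_ifs with h
  · rw [abs_mul, le_div_iff₀ ha]
    have h1 := abs_tr_mul_tr_le hM (φ i v) (φ i w)
    have h2 : |u i| ^ 2 = u i ^ 2 := sq_abs _
    have h3 : |u i| * |tr M (φ i v) * tr M (φ i w)| ≤ |u i| * M :=
      mul_le_mul_of_nonneg_left h1 (abs_nonneg _)
    calc |u i| * |tr M (φ i v) * tr M (φ i w)| * a ≤ |u i| * M * a :=
          mul_le_mul_of_nonneg_right h3 ha.le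
      _ = (|u i| * a) * M := by ring
      _ ≤ (|u i| * |u i|) * M :=
          mul_le_mul_of_nonneg_right (mul_le_mul_of_nonneg_left h (abs_nonneg _)) hM
      _ = u i ^ 2 * M := by rw [← h2]; ring
  · rw [abs_zero]
    positivity

section Int

variable [MeasurableSpace V] {π : Measure V} [IsProbabilityMeasure π] {φ : ι → V → ℝ}

theorem Orthn.int_mul (h : Orthn π φ) (i j : ι) : Integrable (fun v => φ i v * φ j v) π := by
  have h1 := (h.sq i).add (h.sq j)
  refine h1.mono' ((h.meas i).mul (h.meas j)).aestronglyMeasurable ?_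
  refine Filter.Eventually.of_forall fun v => ?_
  rw [Real.norm_eq_abs, abs_le]
  simp only [Pi.add_apply]
  constructor <;> nlinarith [sq_nonneg (φ i v + φ j v), sq_nonneg (φ i v - φ j v),
    sq_nonneg (φ i v), sq_nonneg (φ j v)]

theorem Orthn.int_sq (h : Orthn π φ) (i : ι) : ∫ v, φ i v ^ 2 ∂π = 1 := by
  have := h.orth i i
  simpa [pow_two] using this

/-- Hilbert-Schmidt norm of a diagonal kernel. -/
theorem Orthn.integrable_ker_sq (h : Orthn π φ) (c : ι → ℝ) :
    Integrable (fun p : V × V => (∑ i, c i * φ i p.1 * φ i p.2) ^ 2) (π.prod π) := by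
  have e : (fun p : V × V => (∑ i, c i * φ i p.1 * φ i p.2) ^ 2) =
      fun p => ∑ i, ∑ j, (c i * c j) * ((φ i p.1 * φ j p.1) * (φ i p.2 * φ j p.2)) := by
    funext p
    rw [pow_two, Finset.sum_mul_sum]
    refine Finset.sum_congr rfl fun i _ => Finset.sum_congr rfl fun j _ => ?_
    ring
  rw [e]
  refine integrable_finsetSum _ fun i _ => integrable_finsetSum _ fun j _ => ?_
  exact ((h.int_mul i j).mul_prod (h.int_mul i j)).const_mul _

theorem Orthn.integral_ker_sq (h : Orthn π φ) (c : ι → ℝ) :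
    ∫ p : V × V, (∑ i, c i * φ i p.1 * φ i p.2) ^ 2 ∂(π.prod π) = ∑ i, c i ^ 2 := by
  classical
  have e : (fun p : V × V => (∑ i, c i * φ i p.1 * φ i p.2) ^ 2) =
      fun p => ∑ i, ∑ j, (c i * c j) * ((φ i p.1 * φ j p.1) * (φ i p.2 * φ j p.2)) := by
    funext p
    rw [pow_two, Finset.sum_mul_sum]
    refine Finset.sum_congr rfl fun i _ => Finset.sum_congr rfl fun j _ => ?_
    ring
  have hI : ∀ i j, Integrable
      (fun p : V × V => (c i * c j) * ((φ i p.1 * φ j p.1) * (φ i p.2 * φ j p.2)))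
      (π.prod π) := fun i j =>
    ((h.int_mul i j).mul_prod (h.int_mul i j)).const_mul _
  rw [e, integral_finsetSum _ fun i _ => integrable_finsetSum _ fun j _ => hI i j]
  refine Finset.sum_congr rfl fun i _ => ?_
  rw [integral_finsetSum _ fun j _ => hI i j]
  rw [Finset.sum_eq_single i]
  · rw [integral_const_mul, integral_prod_mul (fun v => φ i v * φ i v) (fun v => φ i v * φ i v),
      h.orth i i]
    simp [pow_two]
  · intro j _ hj
    rw [integral_const_mul, integral_prod_mul (fun v => φ i v * φ j v) (fun v => φ i v * φ j v),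
      h.orth i j]
    simp [Ne.symm hj]
  · intro hi
    exact absurd (Finset.mem_univ i) hi

theorem Orthn.int_sub_tr (h : Orthn π φ) (M : ℝ) (i : ι) :
    Integrable (fun v => (φ i v - tr M (φ i v)) ^ 2) π := by
  refine (h.sq i).mono' ((((h.meas i).sub ((measurable_tr M).comp (h.meas i))).pow_const
    2).aestronglyMeasurable) ?_
  refine Filter.Eventually.of_forall fun v => ?_
  rw [Real.norm_eq_abs, abs_of_nonneg (sq_nonneg _), sub_tr_sq]
  split_ifs
  · exact le_rfl
  · exact sq_nonneg _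

open Classical in
/-- `L²` distance between the kernel and its truncation. -/
theorem Orthn.integral_sub_kerT_sq_le (h : Orthn π φ) (a M : ℝ) (u : ι → ℝ) :
    Integrable (fun p : V × V => (ker u φ p.1 p.2 - kerT a M u φ p.1 p.2) ^ 2) (π.prod π) ∧
    ∫ p : V × V, (ker u φ p.1 p.2 - kerT a M u φ p.1 p.2) ^ 2 ∂(π.prod π) ≤
      2 * (∑ i, if |u i| < a then u i ^ 2 else 0) +
      8 * (∑ i, u i ^ 2) *
        ∑ i, if a ≤ |u i| then ∫ v, (if M < φ i v ^ 2 then φ i v ^ 2 else 0) ∂π else 0 := by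
  set c : ι → ℝ := fun i => if |u i| < a then u i else 0 with hc
  set S : ℝ := ∑ i, u i ^ 2 with hS
  have hS0 : 0 ≤ S := Finset.sum_nonneg fun i _ => sq_nonneg _
  set R : ι → V → ℝ := fun i v => (φ i v - tr M (φ i v)) ^ 2 with hR
  set G : V × V → ℝ := fun p => 2 * (∑ i, c i * φ i p.1 * φ i p.2) ^ 2 +
    4 * S * ∑ i, (if a ≤ |u i| then (R i p.1 * φ i p.2 ^ 2 + φ i p.1 ^ 2 * R i p.2) else 0)
    with hG
  have hRint : ∀ i, Integrable (R i) π := fun i => h.int_sub_tr M i
  have hterm : ∀ i, Integrable (fun p : V × V => R i p.1 * φ i p.2 ^ 2 + φ i p.1 ^ 2 * R i p.2)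
      (π.prod π) := fun i =>
    ((hRint i).mul_prod (h.sq i)).add ((h.sq i).mul_prod (hRint i))
  have hterm' : ∀ i, Integrable (fun p : V × V =>
      (if a ≤ |u i| then (R i p.1 * φ i p.2 ^ 2 + φ i p.1 ^ 2 * R i p.2) else 0))
      (π.prod π) := by
    intro i
    split_ifs
    · exact hterm i
    · exact integrable_zero _ _ _
  have hGint : Integrable G (π.prod π) :=
    ((h.integrable_ker_sq c).const_mul 2).add
      ((integrable_finsetSum _ fun i _ => hterm' i).const_mul (4 * S))
  have hpt : ∀ p : V × V, (ker u φ p.1 p.2 - kerT a M u φ p.1 p.2) ^ 2 ≤ G p := by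
    intro p
    set D2 : ℝ := ∑ i, u i * (if a ≤ |u i| then
      (φ i p.1 * φ i p.2 - tr M (φ i p.1) * tr M (φ i p.2)) else 0) with hD2
    have e : ker u φ p.1 p.2 - kerT a M u φ p.1 p.2 = (∑ i, c i * φ i p.1 * φ i p.2) + D2 := by
      unfold ker kerT
      rw [hD2, ← Finset.sum_sub_distrib, ← Finset.sum_add_distrib]
      refine Finset.sum_congr rfl fun i _ => ?_
      simp only [hc]
      by_cases hi : a ≤ |u i|
      · simp only [hi, if_true, not_lt.mpr hi, if_false]
        ring
      · simp only [hi, if_false, not_le.mp hi, if_true]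
        ring
    have hCS : D2 ^ 2 ≤ S * ∑ i, (if a ≤ |u i| then
      (φ i p.1 * φ i p.2 - tr M (φ i p.1) * tr M (φ i p.2)) else 0) ^ 2 :=
      Finset.sum_mul_sq_le_sq_mul_sq _ _ _
    have h2 : ∑ i, (if a ≤ |u i| then
      (φ i p.1 * φ i p.2 - tr M (φ i p.1) * tr M (φ i p.2)) else 0) ^ 2 ≤
      2 * ∑ i, (if a ≤ |u i| then (R i p.1 * φ i p.2 ^ 2 + φ i p.1 ^ 2 * R i p.2) else 0) := by
      rw [Finset.mul_sum]
      refine Finset.sum_le_sum fun i _ => ?_
      split_ifs
      · simp only [hR]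
        set x := φ i p.1
        set y := φ i p.2
        have h3 := tr_sq_le M x
        have h4 : (x * y - tr M x * tr M y) ^ 2 ≤
            2 * ((x - tr M x) ^ 2 * y ^ 2) + 2 * (tr M x ^ 2 * (y - tr M y) ^ 2) := by
          have : x * y - tr M x * tr M y = (x - tr M x) * y + tr M x * (y - tr M y) := by ring
          rw [this]
          nlinarith [sq_nonneg ((x - tr M x) * y - tr M x * (y - tr M y))]
        have h5 : tr M x ^ 2 * (y - tr M y) ^ 2 ≤ x ^ 2 * (y - tr M y) ^ 2 :=
          mul_le_mul_of_nonneg_right h3 (sq_nonneg _)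
        linarith
      · simp
    have h3 : D2 ^ 2 ≤ S * (2 * ∑ i, (if a ≤ |u i| then
        (R i p.1 * φ i p.2 ^ 2 + φ i p.1 ^ 2 * R i p.2) else 0)) :=
      hCS.trans (mul_le_mul_of_nonneg_left h2 hS0)
    rw [e, hG]
    simp only
    nlinarith [sq_nonneg ((∑ i, c i * φ i p.1 * φ i p.2) - D2)]
  have hmk : Measurable (fun p : V × V => (ker u φ p.1 p.2 - kerT a M u φ p.1 p.2) ^ 2) := by
    unfold ker kerT
    refine Measurable.pow_const (Measurable.sub ?_ ?_) 2
    · refine Finset.measurable_fun_sum _ fun i _ => ?_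
      exact (((h.meas i).comp measurable_fst).const_mul _).mul ((h.meas i).comp measurable_snd)
    · refine Finset.measurable_fun_sum _ fun i _ => ?_
      split_ifs
      · exact (((measurable_tr M).comp ((h.meas i).comp measurable_fst)).mul
          ((measurable_tr M).comp ((h.meas i).comp measurable_snd))).const_mul _
      · exact measurable_const
  have hint : Integrable (fun p : V × V => (ker u φ p.1 p.2 - kerT a M u φ p.1 p.2) ^ 2)
      (π.prod π) := by
    refine hGint.mono' hmk.aestronglyMeasurable (Filter.Eventually.of_forall fun p => ?_)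
    rw [Real.norm_eq_abs, abs_of_nonneg (sq_nonneg _)]
    exact hpt p
  refine ⟨hint, (integral_mono hint hGint hpt).trans (le_of_eq ?_)⟩
  rw [hG, integral_add ((h.integrable_ker_sq c).const_mul 2)
    ((integrable_finsetSum _ fun i _ => hterm' i).const_mul (4 * S)),
    integral_const_mul, integral_const_mul, h.integral_ker_sq c,
    integral_finsetSum _ fun i _ => hterm' i]
  congr 1
  · congr 1
    refine Finset.sum_congr rfl fun i _ => ?_
    simp only [hc]
    split_ifs <;> simp
  · have : ∀ i, ∫ p : V × V, (if a ≤ |u i| then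
        (R i p.1 * φ i p.2 ^ 2 + φ i p.1 ^ 2 * R i p.2) else 0) ∂(π.prod π) =
        2 * (if a ≤ |u i| then ∫ v, (if M < φ i v ^ 2 then φ i v ^ 2 else 0) ∂π else 0) := by
      intro i
      split_ifs
      · rw [integral_add ((hRint i).mul_prod (h.sq i)) ((h.sq i).mul_prod (hRint i)),
          integral_prod_mul (R i) (fun w => φ i w ^ 2),
          integral_prod_mul (fun v => φ i v ^ 2) (R i), h.int_sq i]
        have : ∫ v, R i v ∂π = ∫ v, (if M < φ i v ^ 2 then φ i v ^ 2 else 0) ∂π := by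
          refine integral_congr_ae (Filter.Eventually.of_forall fun v => ?_)
          simp only [hR]
          exact sub_tr_sq _ _
        rw [this]
        ring
      · simp
    simp_rw [this]
    rw [← Finset.mul_sum]
    ring

end Int

end Vale.Agent.P156.H737
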