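import Vale.Agent.P156.H144.GA
import Vale.Agent.P156.G.GB
import Vale.Agent.P156.H737.Trunc

/-! Block G-C, deterministic part: for a kernel `∑ u_i φ_i φ_i` whose far part and whose
untruncated part are small, the sampled cyclic products approximate the power sums. -/

open MeasureTheory Finset Filter Topology
open scoped ENNReal

noncomputable section

namespace Vale.Agent.P156.H737

open Vale.Agent.P156

universe v w

variable {V : Type v} [MeasurableSpace V] {ι : Type w} [Fintype ι]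

theorem Orthn.orthoSys {π : Measure V} [IsProbabilityMeasure π] {φ : ι → V → ℝ}
    (h : Orthn π φ) : H144.OrthoSys π φ where
  meas := h.meas
  int := h.int_mul
  norm i := by rw [h.orth i i]; simp
  orth i j hij := by rw [h.orth i j]; simp [hij]

theorem ker_eq_kerU (u : ι → ℝ) (φ : ι → V → ℝ) : ker u φ = H144.kerU u φ := rfl

/-- The functional of `G-B` is the one of `G-A`. -/
theorem TT_eq_blkT {m Mm : ℕ} (hm : m + 1 ≤ Mm + 1) (N : ℕ) (k : V → V → ℝ)
    (v : Fin N × Fin (Mm + 1) → V) :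
    G.TT N Mm m (fun x y => k (v x) (v y)) = H144.blkT m N (Mm + 1) hm k v := by
  have e : ∀ j : Fin (m + 1), (Fin.ofNat (Mm + 1) j.1 : Fin (Mm + 1)) = Fin.castLE hm j := by
    intro j
    apply Fin.ext
    simp only [Fin.ofNat, Fin.val_castLE]
    exact Nat.mod_eq_of_lt (lt_of_lt_of_le j.2 hm)
  unfold G.TT H144.blkT G.cyc H144.cyc
  rw [div_eq_inv_mul, one_div]
  congr 1
  refine Finset.sum_congr rfl fun b _ => ?_
  simp only [e]

theorem kerT_measurable {π : Measure V} {φ : ι → V → ℝ} (h : Orthn π φ) (a M : ℝ) (u : ι → ℝ) :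
    Measurable (Function.uncurry (kerT a M u φ)) := by
  unfold kerT Function.uncurry
  refine Finset.measurable_fun_sum _ fun i _ => ?_
  split_ifs
  · exact (((measurable_tr M).comp ((h.meas i).comp measurable_fst)).mul
      ((measurable_tr M).comp ((h.meas i).comp measurable_snd))).const_mul _
  · exact measurable_const

open Classical in
theorem hs_sub_kerT_le {π : Measure V} [IsProbabilityMeasure π] {φ : ι → V → ℝ}
    (h : Orthn π φ) (a M : ℝ) (u : ι → ℝ) :
    H144.hs π (fun x y => ENNReal.ofReal |H144.kerU u φ x y - kerT a M u φ x y|) ≤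
      ENNReal.ofReal (2 * (∑ i, if |u i| < a then u i ^ 2 else 0) +
      8 * (∑ i, u i ^ 2) *
        ∑ i, if a ≤ |u i| then ∫ v, (if M < φ i v ^ 2 then φ i v ^ 2 else 0) ∂π else 0) := by
  obtain ⟨hint, hle⟩ := h.integral_sub_kerT_sq_le a M u
  refine le_trans (le_of_eq ?_) (ENNReal.ofReal_le_ofReal hle)
  rw [ofReal_integral_eq_lintegral_ofReal hint (Eventually.of_forall fun p => sq_nonneg _)]
  unfold H144.hs
  rw [lintegral_prod _ hint.aestronglyMeasurable.aemeasurable.ennreal_ofReal]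
  refine lintegral_congr fun x => lintegral_congr fun y => ?_
  rw [← ENNReal.ofReal_pow (abs_nonneg _), sq_abs]
  rfl

/-- A continuous function vanishing at `0` is small near `0`. -/
theorem exists_small (m : ℕ) (Λ ε : ℝ) (hε : 0 < ε) :
    ∃ δ : ℝ, 0 < δ ∧ 2 * (((m : ℝ) + 2) * δ * (Real.sqrt (8 * Λ + 2 * δ ^ 2)) ^ (m + 1)) ≤ ε := by
  have hc : Continuous (fun δ : ℝ =>
      2 * (((m : ℝ) + 2) * δ * (Real.sqrt (8 * Λ + 2 * δ ^ 2)) ^ (m + 1))) := by
    fun_prop
  have h0 : Tendsto (fun δ : ℝ =>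
      2 * (((m : ℝ) + 2) * δ * (Real.sqrt (8 * Λ + 2 * δ ^ 2)) ^ (m + 1))) (𝓝 0) (𝓝 0) := by
    have := hc.tendsto 0
    simpa using this
  have h1 := (h0.eventually (gt_mem_nhds hε))
  obtain ⟨r, hr, hball⟩ := Metric.eventually_nhds_iff.mp h1
  refine ⟨r / 2, by positivity, (hball ?_).le⟩
  rw [Real.dist_eq, sub_zero, abs_of_pos (by positivity)]
  linarith

open Classical in
/-- Block G-C, deterministic part. -/
theorem det_bound (m : ℕ) (hm : 1 ≤ m) (Λ ε : ℝ) (hΛ : 0 ≤ Λ) (hε : 0 < ε) :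
    ∃ δ : ℝ, 0 < δ ∧ ∀ t : ℝ, 0 < t → ∀ M : ℝ, 0 ≤ M → ∃ N0 : ℕ, 0 < N0 ∧ ∀ N ≥ N0,
    ∀ (V : Type v) [MeasurableSpace V] (π : Measure V) [IsProbabilityMeasure π]
      (ι : Type w) [Fintype ι] (u : ι → ℝ) (φ : ι → V → ℝ), Orthn π φ →
      ∑ i, u i ^ 2 ≤ Λ → (∑ i, if |u i| < t then u i ^ 2 else 0) ≤ δ →
      (∑ i, if t ≤ |u i| then ∫ v, (if M < φ i v ^ 2 then φ i v ^ 2 else 0) ∂π else 0) ≤ δ →
      ∀ Mm ≥ m,
        Integrable (fun v : Fin N × Fin (Mm + 1) → V =>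
          G.TT N Mm m (fun x y => ker u φ (v x) (v y))) (Measure.pi fun _ => π) ∧
        ∫ v, |G.TT N Mm m (fun x y => ker u φ (v x) (v y)) - ∑ i, u i ^ (m + 1)|
          ∂(Measure.pi fun _ : Fin N × Fin (Mm + 1) => π) ≤ ε := by
  obtain ⟨m, rfl⟩ : ∃ m', m = m' + 1 := ⟨m - 1, by omega⟩
  obtain ⟨D, hD, hDε⟩ := exists_small m Λ (ε / 2) (by positivity)
  refine ⟨D ^ 2 / (2 + 8 * Λ), by positivity, fun t ht M hM => ?_⟩
  obtain ⟨N0, hN0⟩ := exists_nat_gt ((2 * (Λ * M / t) ^ (m + 2) / ε) ^ 2)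
  refine ⟨N0 + 1, by omega, ?_⟩
  intro N hN V _ π _ ι _ u φ hφ hS hfar hui Mm hMm
  have hNpos : 0 < N := by omega
  have hNr : (0 : ℝ) < N := by exact_mod_cast hNpos
  have hhs : H144.hs π (fun x y => ENNReal.ofReal |H144.kerU u φ x y - kerT t M u φ x y|) ≤
      ENNReal.ofReal (D ^ 2) := by
    refine (hs_sub_kerT_le hφ t M u).trans (ENNReal.ofReal_le_ofReal ?_)
    set A := (∑ i, if |u i| < t then u i ^ 2 else 0) with hA
    set B := (∑ i, if t ≤ |u i| then ∫ v, (if M < φ i v ^ 2 then φ i v ^ 2 else 0) ∂π else 0)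
      with hB
    have hB0 : 0 ≤ B := by
      rw [hB]
      refine Finset.sum_nonneg fun i _ => ?_
      split_ifs
      · refine integral_nonneg fun v => ?_
        simp only [Pi.zero_apply]
        split_ifs
        · exact sq_nonneg _
        · exact le_rfl
      · exact le_rfl
    have h1 : (∑ i, u i ^ 2) * B ≤ Λ * B := mul_le_mul_of_nonneg_right hS hB0
    have h2 : Λ * B ≤ Λ * (D ^ 2 / (2 + 8 * Λ)) := mul_le_mul_of_nonneg_left hui hΛ
    have h3 : (2 + 8 * Λ) * (D ^ 2 / (2 + 8 * Λ)) = D ^ 2 := by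
      field_simp
    nlinarith
  have hsum : ∑ i, u i ^ 2 ≤ (Real.sqrt Λ) ^ 2 := by rwa [Real.sq_sqrt hΛ]
  have hbd : ∀ x y, |kerT t M u φ x y| ≤ Λ * M / t := by
    intro x y
    refine (abs_kerT_le ht hM u φ x y).trans ?_
    gcongr
  obtain ⟨hi, hle⟩ := H144.blkT_L1 π hφ.orthoSys u hsum (kerT_measurable hφ t M u)
    (by positivity : (0 : ℝ) ≤ Λ * M / t) hbd hD.le hhs hNpos
    (m := m) (mm := Mm + 1) (by omega)
  have hfun : (fun v : Fin N × Fin (Mm + 1) → V =>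
      G.TT N Mm (m + 1) (fun x y => ker u φ (v x) (v y))) =
      H144.blkT (m + 1) N (Mm + 1) (by omega) (H144.kerU u φ) := by
    funext v
    rw [ker_eq_kerU]
    exact TT_eq_blkT (by omega) N _ v
  rw [hfun]
  refine ⟨hi, ?_⟩
  have e : ∀ v : Fin N × Fin (Mm + 1) → V,
      G.TT N Mm (m + 1) (fun x y => ker u φ (v x) (v y)) =
      H144.blkT (m + 1) N (Mm + 1) (by omega) (H144.kerU u φ) v := fun v => congrFun hfun v
  simp only [e]
  refine hle.trans ?_
  have h4 : (Λ * M / t) ^ (m + 2) / Real.sqrt N ≤ ε / 2 := by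
    rw [div_le_iff₀ (Real.sqrt_pos.mpr hNr)]
    have h5 : 2 * (Λ * M / t) ^ (m + 2) / ε ≤ Real.sqrt N := by
      refine Real.le_sqrt_of_sq_le ?_
      have : (N0 : ℝ) ≤ N := by exact_mod_cast (by omega : N0 ≤ N)
      linarith
    rw [div_le_iff₀ hε] at h5
    linarith
  rw [Real.sq_sqrt hΛ]
  linarith

end Vale.Agent.P156.H737
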