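import Vale.Agent.P156.H737.GoeLead
import Vale.Agent.P156.H737.Det
import Vale.Agent.P156.H849.EigCont
import Vale.Agent.P156.G.Iface

/-! Block G-C, GOE side: `GoeH1`, `GoeH2`, `GoeInv` from the Wegner estimate at all scales. -/

open MeasureTheory ProbabilityTheory Finset Matrix Filter Topology
open scoped ENNReal NNReal

noncomputable section

namespace Vale.Agent.P156.H737

open Vale.Agent.P156

/-- `∑ s / (x_i² + s²)`, `x_i = n μ_i`. -/
def wf {n : ℕ} (s : ℝ) (w : Upper n → ℝ) : ℝ :=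
  ∑ i, s / (((n : ℝ) * (goeMat_isHermitian w).eigenvalues i) ^ 2 + s ^ 2)

/-- Wegner estimate at all scales. -/
def Weg : Prop := ∃ C : ℝ, 0 ≤ C ∧ ∀ n : ℕ, 1 ≤ n → ∀ s : ℝ, 0 < s →
  ∫⁻ w, ENNReal.ofReal (wf s w) ∂(goeLaw n) ≤ ENNReal.ofReal C

instance goeLaw_prob (n : ℕ) : IsProbabilityMeasure (goeLaw n) := by
  unfold goeLaw
  infer_instance

theorem continuous_goeMat (n : ℕ) : Continuous (fun w : Upper n → ℝ => goeMat w) := by
  refine continuous_pi fun i => continuous_pi fun j => ?_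
  unfold goeMat
  split_ifs
  · exact continuous_apply _
  · exact continuous_apply _

theorem continuous_wf {n : ℕ} {s : ℝ} (hs : 0 < s) :
    Continuous (fun w : Upper n → ℝ => wf s w) := by
  unfold wf
  exact H849.continuous_sum_eigenvalues (fun w : Upper n → ℝ => goeMat w) (continuous_goeMat n)
    (fun w => goeMat_isHermitian w) (fun μ => s / (((n : ℝ) * μ) ^ 2 + s ^ 2))
    (Continuous.div continuous_const (by fun_prop) fun μ => by positivity)

/-- Markov inequality for the Wegner function. -/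
theorem weg_markov {C : ℝ} {n : ℕ} (hn : 1 ≤ n)
    (hW : ∀ n : ℕ, 1 ≤ n → ∀ s : ℝ, 0 < s →
      ∫⁻ w, ENNReal.ofReal (wf s w) ∂(goeLaw n) ≤ ENNReal.ofReal C) {s c : ℝ} (hs : 0 < s)
    (hc : 0 < c) : (goeLaw n) {w | c ≤ wf s w} ≤ ENNReal.ofReal (C / c) := by
  have h1 : {w : Upper n → ℝ | c ≤ wf s w} ⊆
      {w | ENNReal.ofReal c ≤ ENNReal.ofReal (wf s w)} := fun w hw =>
    ENNReal.ofReal_le_ofReal hw
  refine (measure_mono h1).trans ?_
  refine (meas_ge_le_lintegral_div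
    (continuous_wf hs).measurable.ennreal_ofReal.aemeasurable (by simpa using hc)
    ENNReal.ofReal_ne_top).trans ?_
  rw [ENNReal.ofReal_div_of_pos hc]
  exact ENNReal.div_le_div_right (hW n hn s hs) _

section

variable {n : ℕ} (w : Upper n → ℝ)

/-- `x_i = n μ_i`. -/
def xo (w : Upper n → ℝ) (i : Fin n) : ℝ := (n : ℝ) * (goeMat_isHermitian w).eigenvalues i

theorem uO_eq (i : Fin n) : G.uO w i = (xo w i)⁻¹ := rfl

theorem wf_eq (s : ℝ) : wf s w = ∑ i, s / (xo w i ^ 2 + s ^ 2) := rfl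

theorem near_event {s : ℝ} (hs : 0 < s) (h : ∃ i, |xo w i| ≤ s) : 1 / (2 * s) ≤ wf s w := by
  obtain ⟨i, hi⟩ := h
  rw [wf_eq]
  refine le_trans ?_ (Finset.single_le_sum (f := fun i => s / (xo w i ^ 2 + s ^ 2))
    (fun i _ => by positivity) (Finset.mem_univ i))
  have h1 : xo w i ^ 2 ≤ s ^ 2 := by
    rw [← sq_abs]
    exact pow_le_pow_left₀ (abs_nonneg _) hi 2
  rw [div_le_div_iff₀ (by positivity) (by positivity)]
  nlinarith

theorem sum_sq_le {δ : ℝ} (hδ : 0 < δ) (h : ∀ i, δ < |xo w i|) :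
    ∑ i, G.uO w i ^ 2 ≤ (1 + (δ ^ 2)⁻¹) * wf 1 w := by
  rw [wf_eq, Finset.mul_sum]
  refine Finset.sum_le_sum fun i _ => ?_
  rw [uO_eq, inv_pow]
  have hx : δ ^ 2 < xo w i ^ 2 := by
    rw [← sq_abs (xo w i)]
    exact pow_lt_pow_left₀ (h i) hδ.le (by norm_num)
  have hx0 : 0 < xo w i ^ 2 := lt_trans (by positivity) hx
  rw [mul_one_div, inv_eq_one_div, div_le_div_iff₀ hx0 (by positivity)]
  have h2 : 1 ≤ (δ ^ 2)⁻¹ * xo w i ^ 2 := by
    rw [inv_mul_eq_div, le_div_iff₀ (by positivity)]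
    linarith
  nlinarith

theorem far_le {L : ℝ} (hL : 0 < L) :
    (∑ i, if |G.uO w i| < L⁻¹ then G.uO w i ^ 2 else 0) ≤ 2 / L * wf L w := by
  rw [wf_eq, Finset.mul_sum]
  refine Finset.sum_le_sum fun i _ => ?_
  rw [uO_eq]
  split_ifs with h
  · by_cases hx : xo w i = 0
    · rw [hx]
      simp only [_root_.inv_zero, ne_eq, OfNat.ofNat_ne_zero, not_false_eq_true, zero_pow]
      positivity
    · have hxpos : 0 < |xo w i| := abs_pos.mpr hx
      rw [abs_inv] at h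
      have h1 : L < |xo w i| := (inv_lt_inv₀ hxpos hL).mp h
      have h2 : L ^ 2 < xo w i ^ 2 := by
        rw [← sq_abs (xo w i)]
        exact pow_lt_pow_left₀ h1 hL.le (by norm_num)
      have h3 : 0 < xo w i ^ 2 := by positivity
      rw [inv_pow, div_mul_div_comm, inv_eq_one_div, div_le_div_iff₀ h3 (by positivity)]
      nlinarith
  · positivity

end

/-- No eigenvalue close to `0`. -/
theorem goe_near {C : ℝ} (hW : ∀ n : ℕ, 1 ≤ n → ∀ s : ℝ, 0 < s →
      ∫⁻ w, ENNReal.ofReal (wf s w) ∂(goeLaw n) ≤ ENNReal.ofReal C) {n : ℕ} (hn : 1 ≤ n)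
    {δ : ℝ} (hδ : 0 < δ) :
    (goeLaw n) {w | ∃ i, |xo w i| ≤ δ} ≤ ENNReal.ofReal (2 * C * δ) := by
  refine (measure_mono (fun w hw => near_event w hδ hw)).trans
    ((weg_markov hn hW hδ (by positivity : (0 : ℝ) < 1 / (2 * δ))).trans (le_of_eq ?_))
  congr 1
  field_simp

theorem goe_ae_ne (hW : Weg) {n : ℕ} (hn : 1 ≤ n) :
    (goeLaw n) {w | ∃ i, xo w i = 0} = 0 := by
  obtain ⟨C, hC, hW⟩ := hW
  refine le_antisymm ?_ zero_le
  have h1 : Tendsto (fun k : ℕ => ENNReal.ofReal (2 * C * (1 / ((k : ℝ) + 1)))) atTop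
      (𝓝 (ENNReal.ofReal (2 * C * 0))) :=
    ENNReal.tendsto_ofReal ((tendsto_one_div_add_atTop_nhds_zero_nat (𝕜 := ℝ)).const_mul _)
  rw [mul_zero, ENNReal.ofReal_zero] at h1
  refine ge_of_tendsto' h1 fun k => ?_
  refine (measure_mono fun w hw => ?_).trans (goe_near hW hn (by positivity))
  obtain ⟨i, hi⟩ := hw
  refine ⟨i, ?_⟩
  rw [hi, abs_zero]
  positivity

theorem eig_ne_of_xo {n : ℕ} {w : Upper n → ℝ} (h : ¬ ∃ i, xo w i = 0) (i : Fin n) :
    (goeMat_isHermitian w).eigenvalues i ≠ 0 := by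
  intro h0
  exact h ⟨i, by unfold xo; rw [h0, mul_zero]⟩

theorem goeInv (hW : Weg) : G.GoeInv := by
  intro n hn
  rw [ae_iff]
  refine measure_mono_null (fun w hw => ?_) (goe_ae_ne hW hn)
  by_contra hcon
  exact hw (isUnit_det_of_ne (goeMat_isHermitian w) (eig_ne_of_xo hcon))

/-- (H1), GOE side, with explicit form. -/
theorem goe_H1 {C : ℝ} (hC : 0 ≤ C) (hW : ∀ n : ℕ, 1 ≤ n → ∀ s : ℝ, 0 < s →
      ∫⁻ w, ENNReal.ofReal (wf s w) ∂(goeLaw n) ≤ ENNReal.ofReal C) {ε : ℝ} (hε : 0 < ε) :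
    ∃ Λ : ℝ, 0 ≤ Λ ∧ ∀ n : ℕ, 1 ≤ n →
      (goeLaw n) {w | Λ < ∑ i, G.uO w i ^ 2} ≤ ENNReal.ofReal ε := by
  set δ : ℝ := ε / (4 * (C + 1)) with hδ
  have hδ0 : 0 < δ := by positivity
  set c : ℝ := 2 * (C + 1) / ε with hc
  have hc0 : 0 < c := by positivity
  refine ⟨(1 + (δ ^ 2)⁻¹) * c, by positivity, fun n hn => ?_⟩
  have hsub : {w : Upper n → ℝ | (1 + (δ ^ 2)⁻¹) * c < ∑ i, G.uO w i ^ 2} ⊆
      {w | ∃ i, |xo w i| ≤ δ} ∪ {w | c ≤ wf 1 w} := by
    intro w hw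
    by_contra hcon
    simp only [Set.mem_union, Set.mem_ofPred_eq, not_or, not_exists, not_le] at hcon
    have h1 := sum_sq_le w hδ0 hcon.1
    have h2 : (1 + (δ ^ 2)⁻¹) * wf 1 w ≤ (1 + (δ ^ 2)⁻¹) * c :=
      mul_le_mul_of_nonneg_left hcon.2.le (by positivity)
    have h3 : (1 + (δ ^ 2)⁻¹) * c < ∑ i, G.uO w i ^ 2 := hw
    linarith
  refine (measure_mono hsub).trans ((measure_union_le _ _).trans ?_)
  have e1 := goe_near hW hn hδ0
  have e2 := weg_markov hn hW one_pos hc0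
  refine (add_le_add e1 e2).trans ?_
  rw [← ENNReal.ofReal_add (by positivity) (by positivity)]
  refine ENNReal.ofReal_le_ofReal ?_
  have h1 : 2 * C * δ ≤ ε / 2 := by
    rw [hδ, mul_div_assoc', div_le_div_iff₀ (by positivity) (by norm_num)]
    nlinarith
  have h2 : C / c ≤ ε / 2 := by
    rw [hc, div_div_eq_mul_div, div_le_div_iff₀ (by positivity) (by norm_num)]
    nlinarith
  linarith

theorem goeH1 (hW : Weg) : G.GoeH1 := by
  obtain ⟨C, hC, hW⟩ := hW
  intro ε hε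
  obtain ⟨Λ, -, h⟩ := goe_H1 hC hW hε
  refine ⟨Λ, ?_⟩
  filter_upwards [eventually_ge_atTop 1] with n hn
  exact ENNReal.toReal_le_of_le_ofReal hε.le (h n hn)

/-- The far part is small. -/
theorem goe_far {C : ℝ} (hC : 0 ≤ C) (hW : ∀ n : ℕ, 1 ≤ n → ∀ s : ℝ, 0 < s →
      ∫⁻ w, ENNReal.ofReal (wf s w) ∂(goeLaw n) ≤ ENNReal.ofReal C) {ε δ : ℝ} (hε : 0 < ε)
    (hδ : 0 < δ) :
    ∃ t : ℝ, 0 < t ∧ ∀ n : ℕ, 1 ≤ n →
      (goeLaw n) {w | δ < ∑ i, if |G.uO w i| < t then G.uO w i ^ 2 else 0} ≤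
        ENNReal.ofReal ε := by
  set L : ℝ := 2 * (C + 1) / (ε * δ) with hL
  have hL0 : 0 < L := by positivity
  refine ⟨L⁻¹, by positivity, fun n hn => ?_⟩
  have hsub : {w : Upper n → ℝ | δ < ∑ i, if |G.uO w i| < L⁻¹ then G.uO w i ^ 2 else 0} ⊆
      {w | L * δ / 2 ≤ wf L w} := by
    intro w hw
    have h1 : δ < 2 / L * wf L w := lt_of_lt_of_le hw (far_le w hL0)
    rw [div_mul_eq_mul_div, lt_div_iff₀ hL0] at h1
    simp only [Set.mem_ofPred_eq]
    linarith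
  refine (measure_mono hsub).trans ((weg_markov hn hW hL0 (by positivity)).trans ?_)
  refine ENNReal.ofReal_le_ofReal ?_
  rw [div_le_iff₀ (by positivity), hL]
  have : ε * (2 * (C + 1) / (ε * δ) * δ / 2) = C + 1 := by field_simp
  rw [this]
  linarith

/-- (H2), GOE side. -/
theorem goeH2 (hW' : Weg) : G.GoeH2 := by
  have hne := fun (n : ℕ) (hn : 1 ≤ n) => goe_ae_ne hW' hn
  obtain ⟨C, hC, hW⟩ := hW'
  intro m hm Mm hMm ε hε
  obtain ⟨Λ, hΛ, h1⟩ := goe_H1 hC hW (ε := ε / 4) (by positivity)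
  obtain ⟨δ, hδ, hdet⟩ := det_bound.{0, 0} m hm Λ (ε / 4) hΛ (by positivity)
  obtain ⟨t, ht, h2⟩ := goe_far hC hW (ε := ε / 4) (δ := δ) (by positivity) hδ
  obtain ⟨M, hM, hM'⟩ := exists_kap_le (η := δ * t ^ 2 / (Λ + 1)) (by positivity)
  obtain ⟨N0, hN0, hdet⟩ := hdet t ht M hM
  refine ⟨N0, fun N hN => ?_⟩
  filter_upwards [eventually_ge_atTop 1] with n hn
  set Bad : Set (Upper n → ℝ) := ({w | Λ < ∑ i, G.uO w i ^ 2} ∪
    {w | δ < ∑ i, if |G.uO w i| < t then G.uO w i ^ 2 else 0}) ∪ {w | ∃ i, xo w i = 0} with hBad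
  have hbad : (goeLaw n) Bad ≤ ENNReal.ofReal (ε / 2) := by
    refine (measure_union_le _ _).trans ?_
    rw [hne n hn, add_zero]
    refine (measure_union_le _ _).trans ((add_le_add (h1 n hn) (h2 n hn)).trans ?_)
    rw [← ENNReal.ofReal_add (by positivity) (by positivity)]
    exact ENNReal.ofReal_le_ofReal (by linarith)
  set Ψ : (Upper n → ℝ) × (Fin N × Fin (Mm + 1) → Fin n → ℝ) → ℝ := fun ω =>
    min 1 |G.TT N Mm m (G.CO N Mm ω) - ∑ i, G.uO ω.1 i ^ (m + 1)| with hΨ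
  change ∫ ω, Ψ ω ∂(G.PO n N Mm) ≤ ε
  by_cases hint : Integrable Ψ (G.PO n N Mm)
  swap
  · rw [integral_undef hint]
    exact hε.le
  have hΨ0 : ∀ ω, 0 ≤ Ψ ω := fun ω => le_min zero_le_one (abs_nonneg _)
  have hΨ1 : ∀ ω, Ψ ω ≤ 1 := fun ω => min_le_left _ _
  unfold G.PO at hint ⊢
  set Pm : Measure (Fin N × Fin (Mm + 1) → Fin n → ℝ) :=
    Measure.pi fun _ => Measure.pi fun _ => gaussianReal 0 1 with hPm
  rw [integral_prod _ hint]
  have hin1 : ∀ w, ∫ g, Ψ (w, g) ∂Pm ≤ 1 := by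
    intro w
    by_cases hi : Integrable (fun g => Ψ (w, g)) Pm
    · refine (integral_mono hi (integrable_const (1 : ℝ)) fun g => hΨ1 _).trans (le_of_eq ?_)
      simp
    · rw [integral_undef hi]
      exact zero_le_one
  have hin2 : ∀ w, w ∉ Bad → ∫ g, Ψ (w, g) ∂Pm ≤ ε / 4 := by
    intro w hw
    rw [hBad] at hw
    simp only [Set.mem_union, Set.mem_ofPred_eq, not_or, not_lt] at hw
    obtain ⟨⟨g1, g2⟩, g3⟩ := hw
    have hA := goeMat_isHermitian w
    have hui : (∑ i, if t ≤ |G.uO w i| then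
        ∫ g, (if M < pg hA i g ^ 2 then pg hA i g ^ 2 else 0) ∂(H625.gam (Fin n)) else 0) ≤ δ := by
      have hk0 : 0 ≤ kap M := by
        refine integral_nonneg fun x => ?_
        simp only [Pi.zero_apply]
        split_ifs <;> positivity
      have h3 : ∀ i, (if t ≤ |G.uO w i| then
          ∫ g, (if M < pg hA i g ^ 2 then pg hA i g ^ 2 else 0) ∂(H625.gam (Fin n)) else 0) ≤
          G.uO w i ^ 2 * (kap M / t ^ 2) := by
        intro i
        rw [integral_tail_pg]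
        split_ifs with h
        · have h4 : t ^ 2 ≤ G.uO w i ^ 2 := by
            rw [← sq_abs (G.uO w i)]
            exact pow_le_pow_left₀ ht.le h 2
          rw [mul_div_assoc', le_div_iff₀ (by positivity), mul_comm]
          exact mul_le_mul_of_nonneg_right h4 hk0
        · positivity
      refine (Finset.sum_le_sum fun i _ => h3 i).trans ?_
      rw [← Finset.sum_mul]
      have h5 : (∑ i, G.uO w i ^ 2) * (kap M / t ^ 2) ≤ Λ * (kap M / t ^ 2) :=
        mul_le_mul_of_nonneg_right g1 (by positivity)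
      refine h5.trans ?_
      have h6 : kap M / t ^ 2 ≤ δ / (Λ + 1) := by
        rw [div_le_iff₀ (by positivity)]
        calc kap M ≤ δ * t ^ 2 / (Λ + 1) := hM'
          _ = δ / (Λ + 1) * t ^ 2 := by ring
      calc Λ * (kap M / t ^ 2) ≤ Λ * (δ / (Λ + 1)) := mul_le_mul_of_nonneg_left h6 hΛ
        _ ≤ δ := by
          rw [mul_div_assoc', div_le_iff₀ (by positivity)]
          nlinarith
    obtain ⟨hI, hle⟩ := hdet N hN (Fin n → ℝ) (H625.gam (Fin n)) (Fin n) (G.uO w) (pg hA)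
      (orthn_pg hA) g1 g2 hui Mm hMm
    have hC' : ∀ g : Fin N × Fin (Mm + 1) → Fin n → ℝ, G.CO N Mm (w, g) =
        fun x y => ker (G.uO w) (pg hA) (g x) (g y) := by
      intro g
      funext x y
      unfold G.CO
      exact quad_inv_eq_ker hA (eig_ne_of_xo g3) n (g x) (g y)
    refine le_trans ?_ hle
    refine integral_mono_of_nonneg (Eventually.of_forall fun g => hΨ0 _)
      (hI.sub (integrable_const _)).abs (Eventually.of_forall fun g => ?_)
    rw [hΨ]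
    simp only [hC']
    exact min_le_right _ _
  set T := toMeasurable (goeLaw n) Bad with hT
  have hTm : MeasurableSet T := measurableSet_toMeasurable _ _
  have hTμ : (goeLaw n).real T ≤ ε / 2 := by
    rw [Measure.real, hT, measure_toMeasurable]
    exact ENNReal.toReal_le_of_le_ofReal (by positivity) hbad
  have hpt : ∀ w, ∫ g, Ψ (w, g) ∂Pm ≤ ε / 4 + T.indicator (fun _ => (1 : ℝ)) w := by
    intro w
    by_cases hw : w ∈ T
    · rw [Set.indicator_of_mem hw]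
      linarith [hin1 w]
    · rw [Set.indicator_of_notMem hw, add_zero]
      exact hin2 w fun hb => hw (subset_toMeasurable _ _ hb)
  have hInd : Integrable (T.indicator (fun _ => (1 : ℝ))) (goeLaw n) :=
    (integrable_const (1 : ℝ)).indicator hTm
  refine (integral_mono hint.integral_prod_left ((integrable_const (ε / 4)).add hInd)
    hpt).trans ?_
  rw [integral_add' (integrable_const _) hInd, integral_indicator_const _ hTm]
  simp only [integral_const, probReal_univ, smul_eq_mul, one_mul, mul_one]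
  linarith

end Vale.Agent.P156.H737
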