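import Vale.Agent.P156.H625.Gauss
import Vale.Agent.P156.H801.Res
import Vale.Agent.P156.H737.Trunc

/-! Gaussian leads: the functions `g ↦ ⟨ev_i, g⟩` form an orthonormal family, with a universal
uniform integrability; the inverse matrix as a kernel. -/

open MeasureTheory ProbabilityTheory Finset Matrix Filter Topology
open scoped ENNReal NNReal

noncomputable section

namespace Vale.Agent.P156.H737

open Vale.Agent.P156

variable {V : Type*} [Fintype V] [DecidableEq V]

theorem integrable_sq_gaussian : Integrable (fun x : ℝ => x ^ 2) (gaussianReal 0 1) := by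
  have := (memLp_id_gaussianReal (μ := 0) (v := 1) 2).integrable_sq
  simpa using this

theorem integral_sq_gaussian : ∫ x : ℝ, x ^ 2 ∂(gaussianReal 0 1) = 1 := by
  have h := variance_id_gaussianReal (μ := 0) (v := 1)
  rw [variance_eq_integral (by fun_prop)] at h
  simpa [integral_id_gaussianReal] using h

omit [DecidableEq V] in
theorem mp_eval (i : V) : MeasurePreserving (fun x : V → ℝ => x i) (H625.gam V)
    (gaussianReal 0 1) :=
  measurePreserving_eval (fun _ : V => gaussianReal 0 1) i

omit [DecidableEq V] in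
theorem integral_eval (i : V) {f : ℝ → ℝ} (hf : Measurable f) :
    ∫ x, f (x i) ∂(H625.gam V) = ∫ y, f y ∂(gaussianReal 0 1) := by
  rw [← (mp_eval i).map_eq, integral_map (mp_eval i).measurable.aemeasurable
    hf.aestronglyMeasurable]

theorem gam_orth (i j : V) :
    ∫ x, x i * x j ∂(H625.gam V) = if i = j then 1 else 0 := by
  by_cases hij : i = j
  · subst hij
    rw [if_pos rfl]
    have h := integral_eval i (f := fun x : ℝ => x ^ 2) (by fun_prop)
    rw [integral_sq_gaussian] at h
    rw [← h]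
    refine integral_congr_ae (Eventually.of_forall fun x => ?_)
    simp only
    ring
  · rw [if_neg hij]
    have h1 : ∀ x : V → ℝ, x i * x j =
        ∏ k, (if k = i then x k else if k = j then x k else 1) := by
      intro x
      rw [← Finset.mul_prod_erase _ _ (Finset.mem_univ i), if_pos rfl]
      congr 1
      rw [← Finset.mul_prod_erase (Finset.univ.erase i) _
        (Finset.mem_erase.mpr ⟨Ne.symm hij, Finset.mem_univ j⟩), if_neg (Ne.symm hij), if_pos rfl]
      rw [Finset.prod_eq_one, mul_one]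
      intro k hk
      rw [Finset.mem_erase, Finset.mem_erase] at hk
      rw [if_neg hk.2.1, if_neg hk.1]
    simp_rw [h1]
    unfold H625.gam
    rw [integral_fintype_prod_eq_prod
      (f := fun k (x : ℝ) => if k = i then x else if k = j then x else 1)]
    refine Finset.prod_eq_zero (Finset.mem_univ i) ?_
    simp

/-- The matrix of the eigenvectors (rows). -/
def evM {A : Matrix V V ℝ} (hA : A.IsHermitian) : Matrix V V ℝ := fun i a => H801.ev hA i a

theorem evM_mul {A : Matrix V V ℝ} (hA : A.IsHermitian) : evM hA * (evM hA)ᵀ = 1 := by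
  ext i j
  rw [Matrix.mul_apply, Matrix.one_apply]
  exact H801.ev_orth hA i j

/-- The function `g ↦ ⟨ev_i, g⟩`. -/
def pg {A : Matrix V V ℝ} (hA : A.IsHermitian) (i : V) (g : V → ℝ) : ℝ :=
  ∑ a, H801.ev hA i a * g a

theorem pg_eq {A : Matrix V V ℝ} (hA : A.IsHermitian) (i : V) (g : V → ℝ) :
    pg hA i g = (evM hA *ᵥ g) i := rfl

theorem mp_ev {A : Matrix V V ℝ} (hA : A.IsHermitian) :
    MeasurePreserving (fun g : V → ℝ => evM hA *ᵥ g) (H625.gam V) (H625.gam V) := by
  refine ⟨by fun_prop, ?_⟩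
  have h := H625.map_gam_eq (evM hA) (1 : Matrix V V ℝ) (by rw [evM_mul]; simp)
  rw [h]
  simp

theorem mp_pg {A : Matrix V V ℝ} (hA : A.IsHermitian) (i : V) :
    MeasurePreserving (pg hA i) (H625.gam V) (gaussianReal 0 1) :=
  (mp_eval i).comp (mp_ev hA)

theorem integral_pg {A : Matrix V V ℝ} (hA : A.IsHermitian) (i : V) {f : ℝ → ℝ}
    (hf : Measurable f) :
    ∫ g, f (pg hA i g) ∂(H625.gam V) = ∫ y, f y ∂(gaussianReal 0 1) := by
  rw [← (mp_pg hA i).map_eq, integral_map (mp_pg hA i).measurable.aemeasurable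
    hf.aestronglyMeasurable]

theorem orthn_pg {A : Matrix V V ℝ} (hA : A.IsHermitian) : Orthn (H625.gam V) (pg hA) where
  meas i := (mp_pg hA i).measurable
  sq i := (mp_pg hA i).integrable_comp_of_integrable integrable_sq_gaussian
  orth i j := by
    have h : ∫ g, pg hA i g * pg hA j g ∂(H625.gam V) =
        ∫ x, x i * x j ∂(H625.gam V) := by
      conv_rhs => rw [← (mp_ev hA).map_eq]
      rw [integral_map (mp_ev hA).measurable.aemeasurable]
      · rfl
      · exact (Measurable.mul (by fun_prop) (by fun_prop)).aestronglyMeasurable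
    rw [h, gam_orth]
    by_cases hij : i = j <;> simp [hij]

/-- The tail of the second moment of a standard Gaussian. -/
def kap (M : ℝ) : ℝ := ∫ x : ℝ, (if M < x ^ 2 then x ^ 2 else 0) ∂(gaussianReal 0 1)

theorem measurable_tail (M : ℝ) : Measurable (fun x : ℝ => if M < x ^ 2 then x ^ 2 else 0) :=
  Measurable.ite (measurableSet_lt measurable_const (by fun_prop)) (by fun_prop)
    measurable_const

theorem integral_tail_pg {A : Matrix V V ℝ} (hA : A.IsHermitian) (i : V) (M : ℝ) :
    ∫ g, (if M < pg hA i g ^ 2 then pg hA i g ^ 2 else 0) ∂(H625.gam V) = kap M :=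
  integral_pg hA i (measurable_tail M)

theorem tendsto_kap : Tendsto (fun n : ℕ => kap n) atTop (𝓝 0) := by
  have h := tendsto_integral_of_dominated_convergence (μ := gaussianReal 0 1)
    (F := fun (n : ℕ) (x : ℝ) => if (n : ℝ) < x ^ 2 then x ^ 2 else 0) (f := fun _ => (0 : ℝ))
    (fun x => x ^ 2) (fun n => (measurable_tail n).aestronglyMeasurable)
    integrable_sq_gaussian ?_ ?_
  · simpa [kap] using h
  · intro n
    refine Eventually.of_forall fun x => ?_
    rw [Real.norm_eq_abs]
    split_ifs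
    · exact (abs_of_nonneg (sq_nonneg x)).le
    · simpa using sq_nonneg x
  · refine Eventually.of_forall fun x => ?_
    refine tendsto_const_nhds.congr' ?_
    obtain ⟨N, hN⟩ := exists_nat_ge (x ^ 2)
    filter_upwards [eventually_ge_atTop N] with n hn
    rw [if_neg]
    push Not
    exact hN.trans (by exact_mod_cast hn)

theorem exists_kap_le {η : ℝ} (hη : 0 < η) : ∃ M : ℝ, 0 ≤ M ∧ kap M ≤ η := by
  obtain ⟨n, hn⟩ := ((tendsto_kap.eventually (gt_mem_nhds hη))).exists
  exact ⟨n, Nat.cast_nonneg n, hn.le⟩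

/-- The inverse of an invertible symmetric matrix. -/
theorem inv_apply {A : Matrix V V ℝ} (hA : A.IsHermitian) (h0 : ∀ i, hA.eigenvalues i ≠ 0)
    (a b : V) : A⁻¹ a b = ∑ i, H801.ev hA i a * H801.ev hA i b / hA.eigenvalues i := by
  have h : A * (Matrix.of fun a b => ∑ i, H801.ev hA i a * H801.ev hA i b / hA.eigenvalues i) =
      1 := by
    ext a b
    rw [Matrix.mul_apply, Matrix.one_apply, ← H801.ev_complete hA a b]
    simp only [Matrix.of_apply, Finset.mul_sum]
    rw [Finset.sum_comm]
    refine Finset.sum_congr rfl fun i _ => ?_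
    have h1 := H801.ev_eigen hA i a
    have h2 : ∀ c, A a c * (H801.ev hA i c * H801.ev hA i b / hA.eigenvalues i) =
        (A a c * H801.ev hA i c) * (H801.ev hA i b / hA.eigenvalues i) := fun c => by ring
    simp only [h2]
    rw [← Finset.sum_mul, h1]
    have := h0 i
    field_simp
  rw [Matrix.inv_eq_right_inv h]
  rfl

theorem isUnit_det_of_ne {A : Matrix V V ℝ} (hA : A.IsHermitian)
    (h0 : ∀ i, hA.eigenvalues i ≠ 0) : IsUnit A.det := by
  rw [isUnit_iff_ne_zero, hA.det_eq_prod_eigenvalues]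
  simpa [Finset.prod_ne_zero_iff] using h0

/-- The sampled inverse is the kernel of `1/(c μ_i)`. -/
theorem quad_inv_eq_ker {A : Matrix V V ℝ} (hA : A.IsHermitian)
    (h0 : ∀ i, hA.eigenvalues i ≠ 0) (c : ℝ) (g g' : V → ℝ) :
    (∑ a, ∑ b, g a * A⁻¹ a b * g' b) / c =
      ker (fun i => (c * hA.eigenvalues i)⁻¹) (pg hA) g g' := by
  unfold ker pg
  have h1 : ∀ a b, g a * A⁻¹ a b * g' b =
      ∑ i, (H801.ev hA i a * g a) * (H801.ev hA i b * g' b) * (hA.eigenvalues i)⁻¹ := by
    intro a b
    rw [inv_apply hA h0, Finset.mul_sum, Finset.sum_mul]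
    refine Finset.sum_congr rfl fun i _ => ?_
    ring
  simp only [h1]
  have h2 : ∑ a, ∑ b, ∑ i, (H801.ev hA i a * g a) * (H801.ev hA i b * g' b) *
      (hA.eigenvalues i)⁻¹ = ∑ i, (∑ a, H801.ev hA i a * g a) * (∑ b, H801.ev hA i b * g' b) *
      (hA.eigenvalues i)⁻¹ := by
    have h3 : ∀ a, ∑ b, ∑ i, (H801.ev hA i a * g a) * (H801.ev hA i b * g' b) *
        (hA.eigenvalues i)⁻¹ = ∑ i, ∑ b, (H801.ev hA i a * g a) * (H801.ev hA i b * g' b) *
        (hA.eigenvalues i)⁻¹ := fun a => Finset.sum_comm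
    simp only [h3]
    rw [Finset.sum_comm]
    refine Finset.sum_congr rfl fun i _ => ?_
    rw [Finset.sum_mul_sum, Finset.sum_mul]
    refine Finset.sum_congr rfl fun a _ => ?_
    rw [Finset.sum_mul]
  rw [h2, Finset.sum_div]
  refine Finset.sum_congr rfl fun i _ => ?_
  rw [mul_inv]
  ring

end Vale.Agent.P156.H737
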