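import Vale.Agent.P156.R2.Defs
import Vale.Agent.P156.H801.Res
import Vale.Agent.P156.H737.Avg
import Vale.Agent.P156.H737.Trunc

/-! Uniform measure on the vertices, orthonormality of the eigenfunctions `phi`, and the resolvent
kernel. -/

open MeasureTheory Finset Matrix
open scoped ENNReal

noncomputable section

namespace Vale.Agent.P156.H737

open Vale.Agent.P156

/-- The uniform probability measure on `Fin n`. -/
def unif (n : ℕ) : Measure (Fin n) := (n : ℝ≥0∞)⁻¹ • Measure.count

theorem unif_prob {n : ℕ} (hn : 0 < n) : IsProbabilityMeasure (unif n) := by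
  constructor
  unfold unif
  rw [Measure.smul_apply, Measure.count_univ, smul_eq_mul]
  simp only [ENat.card_eq_coe_fintype_card, Fintype.card_fin]
  exact ENNReal.inv_mul_cancel (by simp; omega) (by simp)

instance unif_finite (n : ℕ) [NeZero n] : IsProbabilityMeasure (unif n) :=
  unif_prob (Nat.pos_of_ne_zero (NeZero.ne n))

theorem unif_real_singleton (n : ℕ) (x : Fin n) : (unif n).real {x} = (n : ℝ)⁻¹ := by
  unfold unif
  simp [Measure.real]

theorem unif_singleton (n : ℕ) (x : Fin n) : (unif n) {x} = (n : ℝ≥0∞)⁻¹ := by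
  unfold unif
  simp

theorem integral_unif (n : ℕ) [NeZero n] (f : Fin n → ℝ) :
    ∫ v, f v ∂(unif n) = (∑ v, f v) / n := by
  rw [integral_fintype (Integrable.of_finite), Finset.sum_div]
  refine Finset.sum_congr rfl fun x _ => ?_
  rw [unif_real_singleton, smul_eq_mul]
  ring

theorem integral_pi_unif (n : ℕ) [NeZero n] {κ : Type*} [Fintype κ] [DecidableEq κ] (F : (κ → Fin n) → ℝ) :
    ∫ v, F v ∂(Measure.pi fun _ : κ => unif n) = (∑ v, F v) / (n : ℝ) ^ (Fintype.card κ) := by
  classical
  rw [integral_fintype (Integrable.of_finite), Finset.sum_div]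
  refine Finset.sum_congr rfl fun x _ => ?_
  have : (Measure.pi fun _ : κ => unif n).real {x} = ((n : ℝ) ^ (Fintype.card κ))⁻¹ := by
    rw [Measure.real, Measure.pi_singleton]
    simp only [unif_singleton, Finset.prod_const, Finset.card_univ]
    simp
  rw [this, smul_eq_mul]
  ring

/-- Orthonormality of the normalised eigenfunctions. -/
theorem orthn_phi {n : ℕ} [NeZero n] (G : SimpleGraph (Fin n)) :
    Orthn (unif n) (phi G) where
  meas i := measurable_of_finite _
  sq i := Integrable.of_finite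
  orth i j := by
    classical
    rw [integral_unif]
    have h := H801.ev_orth (adj_isHermitian G) i j
    have hn : (n : ℝ) ≠ 0 := by exact_mod_cast NeZero.ne n
    have e : ∀ v, phi G i v * phi G j v =
        n * (H801.ev (adj_isHermitian G) i v * H801.ev (adj_isHermitian G) j v) := by
      intro v
      unfold phi H801.ev
      have : Real.sqrt n * Real.sqrt n = n := Real.mul_self_sqrt (Nat.cast_nonneg n)
      linear_combination (((adj_isHermitian G).eigenvectorBasis i) v *
        ((adj_isHermitian G).eigenvectorBasis j) v) * this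
    simp only [e]
    rw [← Finset.mul_sum, mul_div_cancel_left₀ _ hn, h]
    by_cases hij : i = j <;> simp [hij]

theorem cutMat_empty {n : ℕ} (A : Matrix (Fin n) (Fin n) ℝ) (z : ℂ) :
    cutMat A ∅ z = A.map Complex.ofReal - z • (1 : Matrix (Fin n) (Fin n) ℂ) := by
  ext x y
  unfold cutMat
  simp [Matrix.one_apply]

theorem eig_ne_of_isUnit {n : ℕ} (G : SimpleGraph (Fin n)) (E : ℝ)
    (h : IsUnit (cutMat (adj G) ∅ (E : ℂ)).det) (i : Fin n) : eig G i ≠ E := by
  intro hi
  have hA := adj_isHermitian G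
  have h1 := H801.ev_orth hA i i
  have h2 := H801.ev_eigen hA i
  set w : Fin n → ℂ := fun a => (H801.ev hA i a : ℂ) with hw
  have h3 : (cutMat (adj G) ∅ (E : ℂ)) *ᵥ w = 0 := by
    rw [cutMat_empty, Matrix.sub_mulVec, Matrix.smul_mulVec, Matrix.one_mulVec]
    ext a
    simp only [Pi.sub_apply, Pi.smul_apply, smul_eq_mul, Pi.zero_apply, Matrix.mulVec,
      dotProduct, Matrix.map_apply, hw]
    have := h2 a
    rw [show hA.eigenvalues i = E from hi] at this
    rw [sub_eq_zero, ← Complex.ofReal_mul, ← this]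
    push_cast
    rfl
  have h4 : w = 0 := Matrix.eq_zero_of_mulVec_eq_zero h.ne_zero h3
  have h5 : ∀ a, H801.ev hA i a = 0 := fun a => by
    have := congrFun h4 a
    simpa [hw] using this
  simp [h5] at h1

/-- The real resolvent is the kernel `∑ φ_i(v) φ_i(w) / x_i`. -/
theorem resD_eq_ker {n : ℕ} [NeZero n] (G : SimpleGraph (Fin n)) (E c : ℝ)
    (h : IsUnit (cutMat (adj G) ∅ (E : ℂ)).det) (v w : Fin n) :
    (resD (adj G) ∅ (E : ℂ) v w).re / c =
      ker (fun i => (c * xx E G i)⁻¹) (phi G) v w := by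
  have hA := adj_isHermitian G
  have hE : ∀ i, (hA.eigenvalues i : ℂ) - (E : ℂ) ≠ 0 := by
    intro i hi
    rw [← Complex.ofReal_sub, Complex.ofReal_eq_zero, sub_eq_zero] at hi
    exact eig_ne_of_isUnit G E h i hi
  have h1 : resD (adj G) ∅ (E : ℂ) = H801.rs (adj G) (E : ℂ) := by
    unfold resD H801.rs
    rw [cutMat_empty]
  rw [h1, H801.rs_apply hA hE]
  have h2 : (∑ i, ((H801.ev hA i v * H801.ev hA i w : ℝ) : ℂ) /
      ((hA.eigenvalues i : ℂ) - (E : ℂ))) =
      ((∑ i, (H801.ev hA i v * H801.ev hA i w) / (hA.eigenvalues i - E) : ℝ) : ℂ) := by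
    push_cast
    rfl
  rw [h2, Complex.ofReal_re, Finset.sum_div]
  unfold ker
  refine Finset.sum_congr rfl fun i _ => ?_
  have hn : (n : ℝ) ≠ 0 := by exact_mod_cast NeZero.ne n
  unfold phi xx eig H801.ev
  have hs : Real.sqrt n * Real.sqrt n = n := Real.mul_self_sqrt (Nat.cast_nonneg n)
  have hne : hA.eigenvalues i - E ≠ 0 := by
    have := eig_ne_of_isUnit G E h i
    exact sub_ne_zero.mpr this
  have e : (c * (↑n * (hA.eigenvalues i - E)))⁻¹ * (Real.sqrt n * (hA.eigenvectorBasis i) v) *
      (Real.sqrt n * (hA.eigenvectorBasis i) w) =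
      (c * (↑n * (hA.eigenvalues i - E)))⁻¹ * (Real.sqrt n * Real.sqrt n) *
        ((hA.eigenvectorBasis i) v * (hA.eigenvectorBasis i) w) := by ring
  rw [e, hs, mul_inv, mul_inv]
  field_simp

theorem centreMat_eq_ker {n d K : ℕ} [NeZero n] (ω : SimpleGraph (Fin n) × StarPos n d K)
    (E c : ℝ) (h : IsUnit (cutMat (adj ω.1) ∅ (E : ℂ)).det) (a b : Fin K) :
    (centreMat ω (E : ℂ) a b).re / c =
      ker (fun i => (c * xx E ω.1 i)⁻¹) (phi ω.1) (ω.2.1 a) (ω.2.1 b) := by
  unfold centreMat
  rw [Matrix.submatrix_apply]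
  exact resD_eq_ker ω.1 E c h _ _

end Vale.Agent.P156.H737
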