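import Vale.Agent.P156.H737.Det
import Vale.Agent.P156.H737.Unif

/-! Block G-C, graph side: the hypotheses (H1) and (H2) of block G-B along a good sequence. -/

open MeasureTheory Finset Filter Topology Matrix
open scoped ENNReal

noncomputable section

namespace Vale.Agent.P156.H737

open Vale.Agent.P156
open Vale.Agent.P156.G (TT)

variable {d : ℕ} {𝒰 : Ultrafilter ℕ} {E : ℕ → ℝ} {E₀ : ℝ}

/-- The inverse points `u_i = 1/(c x_i)`. -/
def uu (c E : ℝ) {n : ℕ} (G : SimpleGraph (Fin n)) (i : Fin n) : ℝ := (c * xx E G i)⁻¹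

theorem uu_sq (c E : ℝ) {n : ℕ} (G : SimpleGraph (Fin n)) (i : Fin n) :
    uu c E G i ^ 2 = (c ^ 2)⁻¹ * (xx E G i ^ 2)⁻¹ := by
  unfold uu
  rw [inv_pow, mul_pow, mul_inv]

open Classical in
/-- (H1), graph side. -/
theorem graph_H1 (hG : GoodSeq d 𝒰 E E₀) {c : ℕ → ℝ} {c0 : ℝ} (hc0 : 0 < c0)
    (hc : ∀ᶠ n in (𝒰 : Filter ℕ), c0 ≤ c n) (ε : ℝ) (hε : 0 < ε) :
    ∃ Λ : ℝ, 0 ≤ Λ ∧ ∀ᶠ n in (𝒰 : Filter ℕ),
      prob (regularGraphs n d) (fun G => Λ < ∑ i, uu (c n) (E n) G i ^ 2) ≤ ε := by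
  obtain ⟨B, hB⟩ := hG.T1 1 one_pos
  obtain ⟨C, hC⟩ := hG.T1' B
  obtain ⟨δ, hδ, hδ'⟩ := hG.T2 (ε / 3) (by positivity)
  set C' : ℝ := max C 1 with hC'
  have hC'1 : 1 ≤ C' := le_max_right _ _
  set Λ : ℝ := (c0 ^ 2)⁻¹ * (3 / ε + 3 * C' / ε * (δ ^ 2)⁻¹) with hΛ
  refine ⟨Λ, by positivity, ?_⟩
  filter_upwards [hB, hC, hδ', hc] with n h1 h2 h3 h4
  have hcn : 0 < c n := lt_of_lt_of_le hc0 h4
  set far : SimpleGraph (Fin n) → ℝ := fun G =>
    ∑ i, if B < |xx (E n) G i| then (xx (E n) G i ^ 2)⁻¹ else 0 with hfar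
  set cnt : SimpleGraph (Fin n) → ℝ := fun G =>
    ∑ i, if |xx (E n) G i| ≤ B then 1 else 0 with hcnt
  have hfar0 : ∀ G ∈ regularGraphs n d, 0 ≤ far G := fun G _ =>
    Finset.sum_nonneg fun i _ => by split_ifs <;> positivity
  have hcnt0 : ∀ G ∈ regularGraphs n d, 0 ≤ cnt G := fun G _ =>
    Finset.sum_nonneg fun i _ => by split_ifs <;> norm_num
  have p1 : prob (regularGraphs n d) (fun G => 3 / ε < far G) ≤ ε / 3 := by
    refine (prob_lt_le_avg hfar0 (by positivity)).trans ?_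
    rw [div_le_iff₀ (by positivity)]
    have : ε / 3 * (3 / ε) = 1 := by field_simp
    rw [this]
    exact h1
  have p2 : prob (regularGraphs n d) (fun G => 3 * C' / ε < cnt G) ≤ ε / 3 := by
    refine (prob_lt_le_avg hcnt0 (by positivity)).trans ?_
    rw [div_le_iff₀ (by positivity)]
    have : ε / 3 * (3 * C' / ε) = C' := by field_simp
    rw [this]
    exact h2.trans (le_max_left _ _)
  have key : ∀ G ∈ regularGraphs n d, Λ < ∑ i, uu (c n) (E n) G i ^ 2 →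
      (3 / ε < far G ∨ 3 * C' / ε < cnt G) ∨ ∃ i, |xx (E n) G i| ≤ δ := by
    intro G _ hlt
    by_contra hcon
    push Not at hcon
    obtain ⟨⟨q1, q2⟩, q3⟩ := hcon
    have e1 : ∑ i, uu (c n) (E n) G i ^ 2 =
        ((c n) ^ 2)⁻¹ * ∑ i, (xx (E n) G i ^ 2)⁻¹ := by
      rw [Finset.mul_sum]
      exact Finset.sum_congr rfl fun i _ => uu_sq _ _ _ _
    have e2 : ∑ i, (xx (E n) G i ^ 2)⁻¹ ≤ far G + cnt G * (δ ^ 2)⁻¹ := by
      rw [hfar, hcnt]
      simp only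
      rw [Finset.sum_mul, ← Finset.sum_add_distrib]
      refine Finset.sum_le_sum fun i _ => ?_
      by_cases hi : B < |xx (E n) G i|
      · simp [hi, not_le.mpr hi]
      · have hi' : |xx (E n) G i| ≤ B := not_lt.mp hi
        simp only [hi, if_false, hi', if_true, zero_add, one_mul]
        have : δ ^ 2 ≤ xx (E n) G i ^ 2 := by
          rw [← sq_abs (xx (E n) G i)]
          exact pow_le_pow_left₀ hδ.le (q3 i).le 2
        exact inv_anti₀ (by positivity) this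
    have e3 : ((c n) ^ 2)⁻¹ ≤ (c0 ^ 2)⁻¹ :=
      inv_anti₀ (by positivity) (pow_le_pow_left₀ hc0.le h4 2)
    have e4 : far G + cnt G * (δ ^ 2)⁻¹ ≤ 3 / ε + 3 * C' / ε * (δ ^ 2)⁻¹ := by
      gcongr
    have e5 : ∑ i, uu (c n) (E n) G i ^ 2 ≤ Λ := by
      rw [e1, hΛ]
      exact mul_le_mul e3 (e2.trans e4) (Finset.sum_nonneg fun i _ => by positivity)
        (by positivity)
    linarith
  calc prob (regularGraphs n d) (fun G => Λ < ∑ i, uu (c n) (E n) G i ^ 2)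
      ≤ prob (regularGraphs n d) (fun G => (3 / ε < far G ∨ 3 * C' / ε < cnt G) ∨
          ∃ i, |xx (E n) G i| ≤ δ) := prob_mono key
    _ ≤ prob (regularGraphs n d) (fun G => 3 / ε < far G ∨ 3 * C' / ε < cnt G) +
          prob (regularGraphs n d) (fun G => ∃ i, |xx (E n) G i| ≤ δ) := prob_or_le _ _ _
    _ ≤ (prob (regularGraphs n d) (fun G => 3 / ε < far G) +
          prob (regularGraphs n d) (fun G => 3 * C' / ε < cnt G)) +
          prob (regularGraphs n d) (fun G => ∃ i, |xx (E n) G i| ≤ δ) :=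
        add_le_add (prob_or_le _ _ _) le_rfl
    _ ≤ ε := by linarith

open Classical in
/-- The far part is small. -/
theorem graph_far (hG : GoodSeq d 𝒰 E E₀) {c : ℕ → ℝ} {c0 c1 : ℝ} (hc0 : 0 < c0)
    (hc : ∀ᶠ n in (𝒰 : Filter ℕ), c0 ≤ c n) (hc' : ∀ᶠ n in (𝒰 : Filter ℕ), c n ≤ c1)
    (ε δ : ℝ) (hε : 0 < ε) (hδ : 0 < δ) :
    ∃ t : ℝ, 0 < t ∧ ∀ᶠ n in (𝒰 : Filter ℕ),
      prob (regularGraphs n d) (fun G => δ < ∑ i, if |uu (c n) (E n) G i| < t then
        uu (c n) (E n) G i ^ 2 else 0) ≤ ε := by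
  have hc1 : 0 < c1 := by
    obtain ⟨n, h1, h2⟩ := (hc.and hc').exists
    linarith
  obtain ⟨B, hB⟩ := hG.T1 (ε * (c0 ^ 2 * δ)) (by positivity)
  set B' : ℝ := max B 1 with hB'
  have hB'1 : 1 ≤ B' := le_max_right _ _
  refine ⟨(c1 * B')⁻¹, by positivity, ?_⟩
  filter_upwards [hB, hc, hc'] with n h1 h2 h3
  have hcn : 0 < c n := lt_of_lt_of_le hc0 h2
  have hpt : ∀ G : SimpleGraph (Fin n), (∑ i, if |uu (c n) (E n) G i| < (c1 * B')⁻¹ then
        uu (c n) (E n) G i ^ 2 else 0) ≤ (c0 ^ 2)⁻¹ *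
      ∑ i, if B < |xx (E n) G i| then (xx (E n) G i ^ 2)⁻¹ else 0 := by
    intro G
    rw [Finset.mul_sum]
    refine Finset.sum_le_sum fun i _ => ?_
    split_ifs with h4 h5 h5
    · rw [uu_sq]
      exact mul_le_mul_of_nonneg_right
        (inv_anti₀ (by positivity) (pow_le_pow_left₀ hc0.le h2 2)) (by positivity)
    · -- then `x_i = 0`
      by_cases hx : xx (E n) G i = 0
      · simp [uu, hx]
      · exfalso
        apply h5
        have hxpos : 0 < |xx (E n) G i| := abs_pos.mpr hx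
        unfold uu at h4
        rw [abs_inv, abs_mul, abs_of_pos hcn] at h4
        have h6 : c1 * B' < c n * |xx (E n) G i| :=
          (inv_lt_inv₀ (by positivity) (by positivity)).mp h4
        have h7 : c n * |xx (E n) G i| ≤ c1 * |xx (E n) G i| :=
          mul_le_mul_of_nonneg_right h3 hxpos.le
        have h8 : B' < |xx (E n) G i| := lt_of_mul_lt_mul_left (h6.trans_le h7) hc1.le
        exact (le_max_left _ _).trans_lt h8
    · positivity
    · simp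
  refine (prob_lt_le_avg (fun G _ => Finset.sum_nonneg fun i _ => by
    split_ifs <;> positivity) hδ).trans ?_
  rw [div_le_iff₀ hδ]
  refine (avg_mono fun G _ => hpt G).trans ?_
  rw [avg_mul_left, inv_mul_le_iff₀ (by positivity)]
  calc _ ≤ ε * (c0 ^ 2 * δ) := h1
    _ = c0 ^ 2 * (ε * δ) := by ring

open Classical in
/-- The untruncated part is small. -/
theorem graph_ui (hG : GoodSeq d 𝒰 E E₀) {c : ℕ → ℝ} {c0 : ℝ} (hc0 : 0 < c0)
    (hc : ∀ᶠ n in (𝒰 : Filter ℕ), c0 ≤ c n) (t ε δ : ℝ) (ht : 0 < t) (hε : 0 < ε)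
    (hδ : 0 < δ) :
    ∃ M : ℝ, 0 ≤ M ∧ ∀ᶠ n in (𝒰 : Filter ℕ),
      prob (regularGraphs n d) (fun G => δ < ∑ i, if t ≤ |uu (c n) (E n) G i| then
        ∫ v, (if M < phi G i v ^ 2 then phi G i v ^ 2 else 0) ∂(unif n) else 0) ≤ ε := by
  obtain ⟨M, hM⟩ := hG.T5 ((c0 * t)⁻¹) (ε * δ) (by positivity)
  refine ⟨max M 0, le_max_right _ _, ?_⟩
  filter_upwards [hM, hc, hG.even] with n h1 h2 h3
  have hn : 0 < n := by omega
  have : NeZero n := ⟨hn.ne'⟩
  have hcn : 0 < c n := lt_of_lt_of_le hc0 h2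
  refine (prob_lt_le_avg (fun G _ => Finset.sum_nonneg fun i _ => ?_) hδ).trans ?_
  · split_ifs
    · refine integral_nonneg fun v => ?_
      simp only [Pi.zero_apply]
      split_ifs <;> positivity
    · exact le_rfl
  rw [div_le_iff₀ hδ]
  refine le_trans ?_ h1
  rw [avg_WW_centres n d 1 (fun G v => ∑ i, if |xx (E n) G i| ≤ (c0 * t)⁻¹ ∧
    M < phi G i (v 0) ^ 2 then phi G i (v 0) ^ 2 else 0)]
  refine avg_mono fun G _ => ?_
  have e1 : (∑ v : Fin 1 → Fin n, ∑ i, if |xx (E n) G i| ≤ (c0 * t)⁻¹ ∧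
      M < phi G i (v 0) ^ 2 then phi G i (v 0) ^ 2 else 0) =
      ∑ v : Fin n, ∑ i, if |xx (E n) G i| ≤ (c0 * t)⁻¹ ∧
      M < phi G i v ^ 2 then phi G i v ^ 2 else 0 := by
    refine Fintype.sum_equiv (Equiv.funUnique (Fin 1) (Fin n)) _ _ fun v => ?_
    rfl
  rw [e1, Finset.sum_comm, pow_one, Finset.sum_div]
  refine Finset.sum_le_sum fun i _ => ?_
  split_ifs with h4
  · have hx : |xx (E n) G i| ≤ (c0 * t)⁻¹ := by
      by_cases hx0 : xx (E n) G i = 0
      · rw [hx0, abs_zero]; positivity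
      · have hxpos : 0 < |xx (E n) G i| := abs_pos.mpr hx0
        unfold uu at h4
        rw [abs_inv, abs_mul, abs_of_pos hcn, le_inv_comm₀ ht (by positivity)] at h4
        rw [mul_inv, ← div_eq_inv_mul, le_div_iff₀ hc0]
        calc |xx (E n) G i| * c0 ≤ |xx (E n) G i| * c n :=
              mul_le_mul_of_nonneg_left h2 hxpos.le
          _ = c n * |xx (E n) G i| := mul_comm _ _
          _ ≤ t⁻¹ := h4
    rw [integral_unif]
    refine div_le_div_of_nonneg_right (Finset.sum_le_sum fun v _ => ?_) (Nat.cast_nonneg _)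
    by_cases h5 : max M 0 < phi G i v ^ 2
    · have h6 : M < phi G i v ^ 2 := (le_max_left _ _).trans_lt h5
      rw [if_pos h5, if_pos ⟨hx, h6⟩]
    · simp only [h5, if_false]
      split_ifs <;> positivity
  · refine div_nonneg (Finset.sum_nonneg fun v _ => ?_) (Nat.cast_nonneg _)
    split_ifs <;> positivity

open Classical in
/-- (H2), graph side. -/
theorem graph_H2 (hG : GoodSeq d 𝒰 E E₀) {c : ℕ → ℝ} {c0 c1 : ℝ} (hc0 : 0 < c0)
    (hc : ∀ᶠ n in (𝒰 : Filter ℕ), c0 ≤ c n) (hc' : ∀ᶠ n in (𝒰 : Filter ℕ), c n ≤ c1)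
    (m : ℕ) (hm : 1 ≤ m) (ε : ℝ) (hε : 0 < ε) :
    ∃ N0 : ℕ, 0 < N0 ∧ ∀ N ≥ N0, ∀ Mm ≥ m, ∀ᶠ n in (𝒰 : Filter ℕ),
      avg (WW n d (N * (Mm + 1))) (fun ω => min 1 |TT N Mm m
        (fun x y => (centreMat ω (E n : ℂ) (finProdFinEquiv x) (finProdFinEquiv y)).re / c n) -
        ∑ i, uu (c n) (E n) ω.1 i ^ (m + 1)|) ≤ ε := by
  obtain ⟨Λ, hΛ, h1⟩ := graph_H1 hG hc0 hc (ε / 4) (by positivity)
  obtain ⟨δ, hδ, hdet⟩ := det_bound.{0, 0} m hm Λ (ε / 4) hΛ (by positivity)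
  obtain ⟨t, ht, h2⟩ := graph_far hG hc0 hc hc' (ε / 4) δ (by positivity) hδ
  obtain ⟨M, hM, h3⟩ := graph_ui hG hc0 hc t (ε / 4) δ ht (by positivity) hδ
  obtain ⟨N0, hN0, hdet⟩ := hdet t ht M hM
  refine ⟨N0, hN0, fun N hN Mm hMm => ?_⟩
  filter_upwards [h1, h2, h3, hG.even, hG.nonsing] with n h1 h2 h3 h4 h5
  have hn : 0 < n := by omega
  have : NeZero n := ⟨hn.ne'⟩
  set K := N * (Mm + 1) with hK
  set Φ : SimpleGraph (Fin n) → (Fin K → Fin n) → ℝ := fun G v =>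
    min 1 |TT N Mm m (fun x y => (resD (adj G) ∅ (E n : ℂ) (v (finProdFinEquiv x))
      (v (finProdFinEquiv y))).re / c n) - ∑ i, uu (c n) (E n) G i ^ (m + 1)| with hΦ
  have e0 : avg (WW n d K) (fun ω => min 1 |TT N Mm m
        (fun x y => (centreMat ω (E n : ℂ) (finProdFinEquiv x) (finProdFinEquiv y)).re / c n) -
        ∑ i, uu (c n) (E n) ω.1 i ^ (m + 1)|) = avg (WW n d K) (fun ω => Φ ω.1 ω.2.1) := rfl
  rw [e0, avg_WW_centres n d K Φ]
  set Bad : SimpleGraph (Fin n) → Prop := fun G =>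
    (Λ < ∑ i, uu (c n) (E n) G i ^ 2 ∨
      δ < ∑ i, if |uu (c n) (E n) G i| < t then uu (c n) (E n) G i ^ 2 else 0) ∨
      δ < ∑ i, if t ≤ |uu (c n) (E n) G i| then
        ∫ v, (if M < phi G i v ^ 2 then phi G i v ^ 2 else 0) ∂(unif n) else 0 with hBad
  have hbad : prob (regularGraphs n d) Bad ≤ ε / 4 + ε / 4 + ε / 4 := by
    refine (prob_or_le _ _ _).trans (add_le_add ((prob_or_le _ _ _).trans
      (add_le_add h1 h2)) h3)
  have hcard : ((Fintype.card (Fin K → Fin n) : ℕ) : ℝ) = (n : ℝ) ^ K := by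
    simp
  refine (avg_le_of_bad (b := ε / 4) (B := Bad) (by positivity) ?_ ?_).trans
    (by linarith : ε / 4 + prob (regularGraphs n d) Bad ≤ ε)
  · intro G _
    rw [div_le_one (by positivity), ← hcard]
    have : (∑ v : Fin K → Fin n, Φ G v) ≤ ∑ _v : Fin K → Fin n, (1 : ℝ) :=
      Finset.sum_le_sum fun v _ => min_le_left _ _
    simpa using this
  · intro G hGreg hgood
    rw [hBad] at hgood
    push Not at hgood
    obtain ⟨⟨g1, g2⟩, g3⟩ := hgood
    obtain ⟨-, hle⟩ := hdet N hN (Fin n) (unif n) (Fin n) (uu (c n) (E n) G) (phi G)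
      (orthn_phi G) g1 g2 g3 Mm hMm
    rw [integral_pi_unif] at hle
    have hcard2 : Fintype.card (Fin N × Fin (Mm + 1)) = K := by simp [hK]
    rw [hcard2] at hle
    refine le_trans ?_ hle
    refine div_le_div_of_nonneg_right ?_ (by positivity)
    have hre : (∑ w : Fin N × Fin (Mm + 1) → Fin n,
        |TT N Mm m (fun x y => ker (uu (c n) (E n) G) (phi G) (w x) (w y)) -
          ∑ i, uu (c n) (E n) G i ^ (m + 1)|) =
        ∑ v : Fin K → Fin n,
        |TT N Mm m (fun x y => ker (uu (c n) (E n) G) (phi G) (v (finProdFinEquiv x))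
          (v (finProdFinEquiv y))) - ∑ i, uu (c n) (E n) G i ^ (m + 1)| := by
      refine (Fintype.sum_equiv (finProdFinEquiv.symm.arrowCongr (Equiv.refl (Fin n)))
        _ _ fun v => ?_).symm
      simp [Equiv.arrowCongr]
    rw [hre]
    refine Finset.sum_le_sum fun v _ => ?_
    rw [hΦ]
    refine (min_le_right _ _).trans (le_of_eq ?_)
    have hk : ∀ a b : Fin n, (resD (adj G) ∅ (E n : ℂ) a b).re / c n =
        ker (uu (c n) (E n) G) (phi G) a b := fun a b =>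
      resD_eq_ker G (E n) (c n) (h5 G hGreg ∅) a b
    simp only [hk]

end Vale.Agent.P156.H737
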